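import Vale.Agent.P371M.H1

namespace Vale.Agent.P371M

open Matrix Finset Real MeasureTheory Filter Topology
open scoped Matrix ComplexOrder MatrixOrder

variable {n m : ℕ}

/-- The one-bound-state constant at `γ = 1`. -/
noncomputable def L11 : ℝ := 4 / (3 * Real.sqrt 3 * π)

theorem young_scalar {w r : ℝ} (hw : 0 ≤ w) (hr : 0 ≤ r) :
    w * r ≤ L11 * w ^ (3 / 2 : ℝ) + π ^ 2 / 4 * r ^ 3 := by
  set s := Real.sqrt w with hs
  have hs0 : 0 ≤ s := Real.sqrt_nonneg _
  have hw2 : w = s ^ 2 := (Real.sq_sqrt hw).symm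
  have hp : w ^ (3 / 2 : ℝ) = s ^ 3 := by
    rw [hw2, ← Real.rpow_natCast s 2, ← Real.rpow_natCast s 3, ← Real.rpow_mul hs0]
    norm_num
  set t := Real.sqrt 3 with ht
  have ht0 : 0 < t := by rw [ht]; positivity
  have ht2 : t ^ 2 = 3 := Real.sq_sqrt (by norm_num)
  set q := t * π / 2 * r with hq
  have hq0 : 0 ≤ q := by rw [hq]; positivity
  have key : 0 ≤ (s - q) ^ 2 * (2 * s + q) := by positivity
  rw [hp, hw2, L11, ← ht]
  have e : (4 / (3 * t * π) * s ^ 3 + π ^ 2 / 4 * r ^ 3 - s ^ 2 * r)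
      = (2 / (3 * t * π)) * ((s - q) ^ 2 * (2 * s + q)) := by
    have ht3 : t ^ 3 = 3 * t := by rw [pow_succ, ht2]
    rw [hq]; field_simp; ring_nf; rw [ht3]; ring
  have := mul_nonneg (by positivity : (0:ℝ) ≤ 2 / (3 * t * π)) key
  linarith

theorem diag_cube {ρ : Matrix (Fin m) (Fin m) ℂ} (h : ρ.PosSemidef) (a : Fin m) :
    (ρ a a).re ^ 3 ≤ ((ρ * ρ * ρ) a a).re := by
  set t := (ρ a a).re with ht
  have hH : ((t : ℂ) • (1 : Matrix (Fin m) (Fin m) ℂ) - ρ).IsHermitian := by
    refine IsHermitian.sub ?_ h.1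
    ext i j
    by_cases hij : i = j
    · subst hij; simp
    · simp [hij, Ne.symm hij]
  have h0 := (h.mul_mul_conjTranspose_same ((t : ℂ) • (1 : Matrix (Fin m) (Fin m) ℂ) - ρ)).diag_nonneg
    (i := a)
  rw [hH.eq] at h0
  have h1 := (Complex.nonneg_iff.1 h0).1
  have hsq : t ^ 2 ≤ ((ρ * ρ) a a).re := by
    rw [Matrix.mul_apply, Complex.re_sum]
    refine le_trans ?_ (Finset.single_le_sum (f := fun j => (ρ a j * ρ j a).re) (fun j _ => ?_)
      (Finset.mem_univ a))
    · have hr : ρ a a = (t : ℂ) := Complex.ext (by simp [ht])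
        (by simpa using (Complex.nonneg_iff.1 (h.diag_nonneg (i := a))).2.symm)
      rw [hr, ← Complex.ofReal_mul, Complex.ofReal_re, sq]
    · rw [← h.1.apply j a, RCLike.star_def, Complex.mul_conj', ← Complex.ofReal_pow,
        Complex.ofReal_re]
      positivity
  have ht0 : 0 ≤ t := (Complex.nonneg_iff.1 h.diag_nonneg).1
  simp only [Matrix.sub_mul, Matrix.mul_sub, Matrix.smul_mul, Matrix.mul_smul, Matrix.one_mul,
    Matrix.mul_one, Matrix.sub_apply, Matrix.smul_apply, smul_eq_mul, Complex.sub_re,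
    Complex.re_ofReal_mul, ← Matrix.mul_assoc] at h1
  nlinarith [mul_le_mul_of_nonneg_left hsq ht0]

theorem young_matrix {W : Matrix (Fin m) (Fin m) ℂ} (hW : W.PosSemidef)
    (A : Matrix (Fin m) (Fin n) ℂ) :
    (trace (Aᴴ * W * A)).re ≤ L11 * trPow (3 / 2) W + π ^ 2 / 4 * cubeTr A := by
  set U : Matrix (Fin m) (Fin m) ℂ := (hW.1.eigenvectorUnitary : Matrix (Fin m) (Fin m) ℂ)
  have hU1 : U * Uᴴ = 1 := Unitary.coe_mul_star_self hW.1.eigenvectorUnitary
  have hd : W = U * diagonal (fun i => (hW.1.eigenvalues i : ℂ)) * Uᴴ := by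
    conv_lhs => rw [hW.1.spectral_theorem]
    rfl
  set w := hW.1.eigenvalues with hw
  set B := Uᴴ * A with hB
  set ρ := B * Bᴴ with hρ
  have hBB : Bᴴ * B = Rmat A := by
    rw [hB, Rmat, Matrix.conjTranspose_mul, Matrix.conjTranspose_conjTranspose, Matrix.mul_assoc,
      ← Matrix.mul_assoc U, hU1, Matrix.one_mul]
  have e1 : (trace (Aᴴ * W * A)).re = ∑ a, w a * (ρ a a).re := by
    rw [hd, show Aᴴ * (U * diagonal (fun i => (w i : ℂ)) * Uᴴ) * A
      = Bᴴ * (diagonal (fun i => (w i : ℂ)) * B) by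
      rw [hB, Matrix.conjTranspose_mul, Matrix.conjTranspose_conjTranspose]
      simp only [Matrix.mul_assoc], Matrix.trace_mul_comm, Matrix.mul_assoc, ← hρ, Matrix.trace,
      Complex.re_sum]
    exact Finset.sum_congr rfl fun a _ => by
      rw [Matrix.diag_apply, Matrix.diagonal_mul, Complex.re_ofReal_mul]
  have e2 : cubeTr A = ∑ a, ((ρ * ρ * ρ) a a).re := by
    rw [cubeTr, ← hBB, show Bᴴ * B * (Bᴴ * B) * (Bᴴ * B) = Bᴴ * (ρ * ρ * B) by
      simp only [hρ, Matrix.mul_assoc], Matrix.trace_mul_comm,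
      show ρ * ρ * B * Bᴴ = ρ * ρ * ρ by simp only [hρ, Matrix.mul_assoc], Matrix.trace,
      Complex.re_sum]
    rfl
  have e3 : trPow (3 / 2) W = ∑ a, w a ^ (3 / 2 : ℝ) := by rw [trPow, dif_pos hW.1]
  rw [e1, e2, e3, Finset.mul_sum, Finset.mul_sum, ← Finset.sum_add_distrib]
  refine Finset.sum_le_sum fun a _ => ?_
  have hρp : ρ.PosSemidef := posSemidef_self_mul_conjTranspose B
  have h1 := young_scalar (hW.eigenvalues_nonneg a) (r := (ρ a a).re) (Complex.nonneg_iff.1 (hρp.diag_nonneg (i := a))).1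
  have h2 := diag_cube hρp a
  have h3 := mul_le_mul_of_nonneg_left h2 (by positivity : (0:ℝ) ≤ π ^ 2 / 4)
  linarith

theorem IsH1.mul_integrable {u du v dv : ℝ → ℂ} (hu : IsH1 u du) (hv : IsH1 v dv) :
    Integrable fun x => star (u x) * v x := by
  refine (hu.sq_integrable.add hv.sq_integrable).mono'
    ((Complex.continuous_conj.comp_aestronglyMeasurable hu.1.1).mul hv.1.1)
    (Eventually.of_forall fun x => ?_)
  simp only [Pi.add_apply, norm_mul, norm_star]
  nlinarith [norm_nonneg (u x), norm_nonneg (v x), sq_nonneg (‖u x‖ - ‖v x‖)]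

theorem gram_le {u du : Fin n → ℝ → Fin m → ℂ}
    (h : ∀ i a, IsH1 (fun x => u i x a) (fun x => du i x a))
    (horth : ∀ i j, (∫ x, star (u i x) ⬝ᵥ u j x) = if i = j then (1 : ℂ) else 0) :
    ∀ a b : ℝ, a ≤ b → ((1 : Matrix (Fin n) (Fin n) ℂ)
      - Matrix.of fun i j => ∫ x in a..b,
          Rmat (Matrix.of fun a i => u i x a) i j).PosSemidef := by
  set U : ℝ → Matrix (Fin m) (Fin n) ℂ := fun x => Matrix.of fun a i => u i x a with hU
  have hRe : ∀ x i j, Rmat (U x) i j = star (u i x) ⬝ᵥ u j x := fun x i j => by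
    simp [Rmat, hU, Matrix.mul_apply, dotProduct]
  have hRi : ∀ i j, Integrable fun x => Rmat (U x) i j := fun i j => by
    simp only [hRe, dotProduct, Pi.star_apply]
    exact integrable_finsetSum _ fun a _ => (h i a).mul_integrable (h j a)
  intro a b hab
  have hsplit : ∀ i j, (if i = j then (1:ℂ) else 0) - (∫ x in a..b, Rmat (U x) i j)
      = ∫ x in (Set.Ioc a b)ᶜ, Rmat (U x) i j := by
    intro i j
    rw [intervalIntegral.integral_of_le hab, setIntegral_compl measurableSet_Ioc (hRi i j)]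
    simp only [hRe, horth]
  show ((1 : Matrix (Fin n) (Fin n) ℂ)
    - Matrix.of fun i j => ∫ x in a..b, Rmat (U x) i j).PosSemidef
  refine PosSemidef.of_dotProduct_mulVec_nonneg ?_ fun v => ?_
  · ext i j
    simp only [Matrix.conjTranspose_apply, Matrix.sub_apply, Matrix.one_apply, Matrix.of_apply,
      hsplit, RCLike.star_def, ← integral_conj]
    exact integral_congr_ae (Eventually.of_forall fun x =>
      (posSemidef_conjTranspose_mul_self (U x)).1.apply i j)
  · have hp : ∀ x, 0 ≤ star v ⬝ᵥ (Rmat (U x) *ᵥ v) := fun x =>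
      (posSemidef_conjTranspose_mul_self (U x)).dotProduct_mulVec_nonneg v
    have e : star v ⬝ᵥ (((1 : Matrix (Fin n) (Fin n) ℂ)
        - Matrix.of fun i j => ∫ x in a..b, Rmat (U x) i j) *ᵥ v)
        = ∫ x in (Set.Ioc a b)ᶜ, star v ⬝ᵥ (Rmat (U x) *ᵥ v) := by
      simp only [dotProduct, mulVec, Matrix.sub_apply, Matrix.one_apply, Matrix.of_apply, hsplit,
        Finset.mul_sum]
      rw [integral_finsetSum _ fun i _ => integrable_finsetSum _ fun j _ =>
        (((hRi i j).mul_const _).const_mul _).integrableOn]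
      refine Finset.sum_congr rfl fun i _ => ?_
      rw [integral_finsetSum _ fun j _ => (((hRi i j).mul_const _).const_mul _).integrableOn]
      refine Finset.sum_congr rfl fun j _ => ?_
      rw [integral_const_mul, integral_mul_const]
    rw [e]
    have e2 : ∀ x, star v ⬝ᵥ (Rmat (U x) *ᵥ v)
        = (((star v ⬝ᵥ (Rmat (U x) *ᵥ v)).re : ℝ) : ℂ) := fun x => by
      apply Complex.ext
      · simp
      · simpa using (Complex.nonneg_iff.1 (hp x)).2.symm
    rw [integral_congr_ae (Eventually.of_forall e2), integral_complex_ofReal,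
      Complex.zero_le_real]
    exact integral_nonneg fun x => (Complex.nonneg_iff.1 (hp x)).1

/-- The variational Lieb-Thirring inequality at `γ = 1`. -/
theorem form_bound {W : ℝ → Matrix (Fin m) (Fin m) ℂ} (hW : IsPotential 1 W)
    {u du : Fin n → ℝ → Fin m → ℂ}
    (h : ∀ i a, IsH1 (fun x => u i x a) (fun x => du i x a))
    (horth : ∀ i j, (∫ x, star (u i x) ⬝ᵥ u j x) = if i = j then (1 : ℂ) else 0) :
    (∀ i, Integrable fun x => star (u i x) ⬝ᵥ (W x *ᵥ u i x)) ∧
    ∑ i, ((∫ x, star (u i x) ⬝ᵥ (W x *ᵥ u i x)).re - (∫ x, star (du i x) ⬝ᵥ du i x).re)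
      ≤ L11 * ∫ x, trPow (3 / 2) (W x) := by
  set U : ℝ → Matrix (Fin m) (Fin n) ℂ := fun x => Matrix.of fun a i => u i x a with hU
  set dU : ℝ → Matrix (Fin m) (Fin n) ℂ := fun x => Matrix.of fun a i => du i x a with hdU
  have hgram := gram_le h horth
  obtain ⟨hci, hkin⟩ := kinetic_global (u := U) (du := dU) (fun a i => h i a) hgram
  have hWe : ∀ x, (trace ((U x)ᴴ * W x * U x)).re
      = ∑ i, (star (u i x) ⬝ᵥ (W x *ᵥ u i x)).re := fun x => by
    simp only [Matrix.trace, Complex.re_sum, Matrix.diag_apply]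
    refine Finset.sum_congr rfl fun i _ => ?_
    congr 1
    rw [Matrix.mul_assoc]
    simp [hU, Matrix.mul_apply, dotProduct, mulVec, Finset.mul_sum]
  have hW32 : Integrable fun x => trPow (3 / 2) (W x) := by
    have := hW.2.2
    rwa [show (1:ℝ) + 1 / 2 = 3 / 2 by norm_num] at this
  set D := fun x => L11 * trPow (3 / 2) (W x) + π ^ 2 / 4 * cubeTr (U x) with hD
  have hDi : Integrable D := (hW32.const_mul _).add (hci.const_mul _)
  have hq0 : ∀ i x, 0 ≤ star (u i x) ⬝ᵥ (W x *ᵥ u i x) := fun i x =>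
    (hW.1 x).dotProduct_mulVec_nonneg _
  have hqi : ∀ i, Integrable fun x => star (u i x) ⬝ᵥ (W x *ᵥ u i x) := by
    intro i
    refine hDi.mono' ?_ (Eventually.of_forall fun x => ?_)
    · refine Measurable.aestronglyMeasurable ?_
      simp only [dotProduct, mulVec, Pi.star_apply]
      refine Finset.measurable_fun_sum _ fun a _ => ((h i a).continuous.star.measurable).mul
        (Finset.measurable_fun_sum _ fun b _ => (hW.2.1 a b).mul (h i b).continuous.measurable)
    · have h0 := Complex.nonneg_iff.1 (hq0 i x)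
      have : ‖star (u i x) ⬝ᵥ (W x *ᵥ u i x)‖ = (star (u i x) ⬝ᵥ (W x *ᵥ u i x)).re := by
        rw [← Complex.abs_re_eq_norm.2 h0.2.symm, abs_of_nonneg h0.1]
      rw [this]
      refine le_trans ?_ (young_matrix (hW.1 x) (U x))
      rw [hWe]
      exact Finset.single_le_sum (f := fun j => (star (u j x) ⬝ᵥ (W x *ᵥ u j x)).re)
        (fun j _ => (Complex.nonneg_iff.1 (hq0 j x)).1) (Finset.mem_univ i)
  refine ⟨hqi, ?_⟩
  have hdi : ∀ i, Integrable fun x => star (du i x) ⬝ᵥ du i x := fun i => by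
    simp only [dotProduct, Pi.star_apply, RCLike.star_def, Complex.conj_mul']
    refine integrable_finsetSum _ fun a _ => ?_
    exact ((h i a).dsq_integrable.ofReal (𝕜 := ℂ)).congr
      (Eventually.of_forall fun x => Complex.ofReal_pow _ _)
  have hfr : ∀ x, frobSq (dU x) = ∑ i, (star (du i x) ⬝ᵥ du i x).re := fun x => by
    simp only [frobSq, Matrix.trace, Complex.re_sum, Matrix.diag_apply]
    refine Finset.sum_congr rfl fun i _ => ?_
    simp [hdU, Matrix.mul_apply, dotProduct]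
  have e1 : ∑ i, (∫ x, star (u i x) ⬝ᵥ (W x *ᵥ u i x)).re
      = ∫ x, (trace ((U x)ᴴ * W x * U x)).re := by
    simp only [hWe]
    exact ((integral_finsetSum _ fun i _ => (hqi i).re).trans
      (Finset.sum_congr rfl fun i _ => integral_re (hqi i))).symm
  have e2 : ∑ i, (∫ x, star (du i x) ⬝ᵥ du i x).re = ∫ x, frobSq (dU x) := by
    simp only [hfr]
    exact ((integral_finsetSum _ fun i _ => (hdi i).re).trans
      (Finset.sum_congr rfl fun i _ => integral_re (hdi i))).symm
  rw [Finset.sum_sub_distrib, e1, e2]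
  have h1 : (∫ x, (trace ((U x)ᴴ * W x * U x)).re) ≤ ∫ x, D x := by
    refine integral_mono ?_ hDi fun x => young_matrix (hW.1 x) (U x)
    simp only [hWe]
    exact integrable_finsetSum _ fun i _ => (hqi i).re
  rw [hD, integral_add (hW32.const_mul _) (hci.const_mul _), integral_const_mul,
    integral_const_mul] at h1
  linarith

theorem eig_bound {W : ℝ → Matrix (Fin m) (Fin m) ℂ} (hW : IsPotential 1 W)
    {u du : Fin n → ℝ → Fin m → ℂ} {lam : Fin n → ℝ} (hE : IsEigFamily W u du lam) :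
    ∑ i, |lam i| ≤ L11 * ∫ x, trPow (3 / 2) (W x) := by
  obtain ⟨h, horth, hneg, hweak⟩ := hE
  refine le_trans (le_of_eq (Finset.sum_congr rfl fun i _ => ?_)) (form_bound hW h horth).2
  have := hweak i (u i) (du i) (h i)
  rw [horth i i, if_pos rfl, mul_one] at this
  have h2 := congrArg Complex.re this
  rw [Complex.sub_re, Complex.ofReal_re] at h2
  rw [abs_of_neg (hneg i)]
  linarith

end Vale.Agent.P371M
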