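import Mathlib

namespace Vale.Agent.P371M

open MeasureTheory Matrix
open scoped ComplexOrder

/-- `u` belongs to the Sobolev space `H^1(ℝ)` and `du` is its weak derivative: both are square
integrable and `u` is the primitive of `du`. -/
def IsH1 (u du : ℝ → ℂ) : Prop :=
  MemLp u 2 ∧ MemLp du 2 ∧ ∀ a b : ℝ, u b - u a = ∫ x in a..b, du x

/-- Trace of the power `p` of a Hermitian matrix, via its eigenvalues. -/
noncomputable def trPow {m : ℕ} (p : ℝ) (A : Matrix (Fin m) (Fin m) ℂ) : ℝ :=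
  if h : A.IsHermitian then ∑ a, (h.eigenvalues a) ^ p else 0

/-- A matrix potential: measurable, Hermitian positive semidefinite, with integrable
`tr W^(γ + 1/2)`. -/
def IsPotential {m : ℕ} (γ : ℝ) (W : ℝ → Matrix (Fin m) (Fin m) ℂ) : Prop :=
  (∀ x, (W x).PosSemidef) ∧ (∀ a b, Measurable fun x => W x a b) ∧
    Integrable fun x => trPow (γ + 1 / 2) (W x)

/-- A finite `L^2`-orthonormal family of eigenfunctions of `-d²/dx² - W`, in the weak (form)
sense, with negative eigenvalues `lam`. The component `a` of the function number `i` is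
`fun x => u i x a`. -/
def IsEigFamily {m n : ℕ} (W : ℝ → Matrix (Fin m) (Fin m) ℂ)
    (u du : Fin n → ℝ → Fin m → ℂ) (lam : Fin n → ℝ) : Prop :=
  (∀ i a, IsH1 (fun x => u i x a) (fun x => du i x a)) ∧
  (∀ i j, (∫ x, star (u i x) ⬝ᵥ u j x) = if i = j then (1 : ℂ) else 0) ∧
  (∀ i, lam i < 0) ∧
  ∀ (i : Fin n) (φ dφ : ℝ → Fin m → ℂ), (∀ a, IsH1 (fun x => φ x a) (fun x => dφ x a)) →
    (∫ x, star (dφ x) ⬝ᵥ du i x) - (∫ x, star (φ x) ⬝ᵥ (W x *ᵥ u i x))
      = (lam i : ℂ) * ∫ x, star (φ x) ⬝ᵥ u i x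

/-- The ratios whose supremum is the Lieb-Thirring constant `L_γ(m)`: sums of `|λ|^γ` over finitely
many negative eigenvalues (with multiplicity), divided by `∫ tr W^(γ + 1/2)`, over nonzero
potentials. -/
def LTRatios (γ : ℝ) (m : ℕ) : Set ℝ :=
  {r | ∃ W : ℝ → Matrix (Fin m) (Fin m) ℂ, IsPotential γ W ∧
    0 < (∫ x, trPow (γ + 1 / 2) (W x)) ∧
    ∃ (n : ℕ) (u du : Fin n → ℝ → Fin m → ℂ) (lam : Fin n → ℝ), IsEigFamily W u du lam ∧
      r = (∑ i, |lam i| ^ γ) / ∫ x, trPow (γ + 1 / 2) (W x)}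

end Vale.Agent.P371M
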