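import Vale.Agent.P371M.Upper

namespace Vale.Agent.P371M

open Matrix Finset Real MeasureTheory Filter Topology Set
open scoped Matrix ComplexOrder

/-- The normalized soliton `(π cosh x)^(-1/2)`. -/
noncomputable def sol (x : ℝ) : ℝ := 1 / Real.sqrt (π * cosh x)

noncomputable def sol1 (x : ℝ) : ℝ := -(1 / 2) * (sinh x / cosh x) * sol x

noncomputable def solPot (x : ℝ) : ℝ := 3 / 4 / cosh x ^ 2

theorem sqrtpc_pos (x : ℝ) : 0 < Real.sqrt (π * cosh x) :=
  Real.sqrt_pos.2 (mul_pos pi_pos (cosh_pos x))

theorem sol_sq (x : ℝ) : sol x ^ 2 = 1 / (π * cosh x) := by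
  rw [sol, div_pow, one_pow, Real.sq_sqrt (mul_pos pi_pos (cosh_pos x)).le]

theorem sol_hasDeriv (x : ℝ) : HasDerivAt sol (sol1 x) x := by
  have h := (((hasDerivAt_cosh x).const_mul π).sqrt (mul_pos pi_pos (cosh_pos x)).ne')
  have h2 := (hasDerivAt_const x (1:ℝ)).div h (sqrtpc_pos x).ne'
  refine h2.congr_deriv ?_
  simp only [sol1, sol, Real.sq_sqrt (mul_pos pi_pos (cosh_pos x)).le]
  have := (sqrtpc_pos x).ne'
  have := (cosh_pos x).ne'
  field_simp
  ring

theorem sol1_hasDeriv (x : ℝ) :
    HasDerivAt sol1 ((1 / 4 - solPot x) * sol x) x := by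
  have hc := (cosh_pos x).ne'
  have h := (((hasDerivAt_sinh x).div (hasDerivAt_cosh x) hc).const_mul (-(1/2 : ℝ))).mul
    (sol_hasDeriv x)
  refine h.congr_deriv ?_
  simp only [sol1, solPot, Pi.div_apply]
  field_simp
  linear_combination (-12 * sol x) * cosh_sq_sub_sinh_sq x

noncomputable def prim1 (x : ℝ) : ℝ := arctan (sinh x)

theorem prim1_hasDeriv (x : ℝ) : HasDerivAt prim1 (1 / cosh x) x := by
  refine ((hasDerivAt_sinh x).arctan).congr_deriv ?_
  have := (cosh_pos x).ne'
  rw [← cosh_sq' x]; field_simp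

noncomputable def prim3 (x : ℝ) : ℝ :=
  1 / 2 * (sinh x / cosh x ^ 2) + 1 / 2 * arctan (sinh x)

theorem prim3_hasDeriv (x : ℝ) : HasDerivAt prim3 (1 / cosh x ^ 3) x := by
  have hc := (cosh_pos x).ne'
  have h := (((hasDerivAt_sinh x).div ((hasDerivAt_cosh x).pow 2) (pow_ne_zero 2 hc)).const_mul
    (1 / 2 : ℝ)).add ((prim1_hasDeriv x).const_mul (1 / 2 : ℝ))
  refine h.congr_deriv ?_
  simp only [Pi.pow_apply]
  push_cast
  field_simp
  linear_combination (2 : ℝ) * cosh_sq_sub_sinh_sq x

theorem sinh_tendsto_top : Tendsto sinh atTop atTop := by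
  refine tendsto_atTop_mono' _ ?_ tendsto_id
  filter_upwards [eventually_ge_atTop (0:ℝ)] with x hx
  exact self_le_sinh_iff.2 hx

theorem prim1_tendsto : Tendsto prim1 atTop (𝓝 (π / 2)) ∧ Tendsto prim1 atBot (𝓝 (-(π / 2))) := by
  have h1 : Tendsto prim1 atTop (𝓝 (π / 2)) :=
    (tendsto_nhds_of_tendsto_nhdsWithin tendsto_arctan_atTop).comp sinh_tendsto_top
  refine ⟨h1, ?_⟩
  have := (h1.comp tendsto_neg_atBot_atTop).neg
  refine this.congr fun x => ?_
  simp [prim1, sinh_neg, arctan_neg]

theorem prim3_tendsto : Tendsto prim3 atTop (𝓝 (π / 4)) ∧ Tendsto prim3 atBot (𝓝 (-(π / 4))) := by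
  have h0 : Tendsto (fun x => sinh x / cosh x ^ 2) atTop (𝓝 0) := by
    refine squeeze_zero' ?_ ?_ (tendsto_inv_atTop_zero.comp
      (tendsto_atTop_mono (fun x => (le_abs_self (sinh x)).trans
        (abs_le.2 ⟨by linarith [sinh_lt_cosh (-x), sinh_neg x, cosh_neg x], (sinh_lt_cosh x).le⟩))
        sinh_tendsto_top))
    · filter_upwards [eventually_ge_atTop (0:ℝ)] with x hx
      exact div_nonneg (sinh_nonneg_iff.2 hx) (by positivity)
    · refine Eventually.of_forall fun x => ?_
      simp only [Function.comp_apply]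
      rw [div_le_iff₀ (pow_pos (cosh_pos x) 2), sq, ← mul_assoc, inv_mul_cancel₀ (cosh_pos x).ne',
        one_mul]
      exact (sinh_lt_cosh x).le
  have h1 : Tendsto prim3 atTop (𝓝 (π / 4)) := by
    have := (h0.const_mul (1 / 2 : ℝ)).add (prim1_tendsto.1.const_mul (1 / 2 : ℝ))
    rw [show 1 / 2 * (0:ℝ) + 1 / 2 * (π / 2) = π / 4 by ring] at this
    exact this
  refine ⟨h1, ?_⟩
  refine ((h1.comp tendsto_neg_atBot_atTop).neg).congr fun x => ?_
  simp [prim3, sinh_neg, cosh_neg, arctan_neg, neg_div]
  ring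

theorem sech_integrable : Integrable fun x => 1 / cosh x := by
  have hc : Continuous fun x => 1 / cosh x :=
    continuous_const.div continuous_cosh fun x => (cosh_pos x).ne'
  refine integrable_of_intervalIntegral_norm_bounded π (fun k : ℕ => hc.integrableOn_Ioc)
    (tendsto_neg_atTop_atBot.comp tendsto_natCast_atTop_atTop) tendsto_natCast_atTop_atTop
    (Eventually.of_forall fun k => ?_)
  simp only [Real.norm_of_nonneg (one_div_nonneg.2 (cosh_pos _).le)]
  rw [intervalIntegral.integral_eq_sub_of_hasDerivAt (fun x _ => prim1_hasDeriv x)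
    (hc.intervalIntegrable _ _)]
  simp only [prim1, Function.comp_apply]
  linarith [arctan_lt_pi_div_two (sinh (k:ℝ)), neg_pi_div_two_lt_arctan (sinh (-(k:ℝ)))]

theorem sech3_integrable : Integrable fun x => 1 / cosh x ^ 3 := by
  refine sech_integrable.mono' ((continuous_const.div (continuous_cosh.pow 3)
    fun x => (pow_pos (cosh_pos x) 3).ne').aestronglyMeasurable) (Eventually.of_forall fun x => ?_)
  rw [Real.norm_of_nonneg (one_div_nonneg.2 (pow_pos (cosh_pos x) 3).le)]
  exact one_div_le_one_div_of_le (cosh_pos x) (le_self_pow₀ (one_le_cosh x) (by norm_num))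

theorem integral_sech : ∫ x, 1 / cosh x = π := by
  rw [integral_of_hasDerivAt_of_tendsto prim1_hasDeriv sech_integrable prim1_tendsto.2
    prim1_tendsto.1]
  ring

theorem integral_sech3 : ∫ x, 1 / cosh x ^ 3 = π / 2 := by
  rw [integral_of_hasDerivAt_of_tendsto prim3_hasDeriv sech3_integrable prim3_tendsto.2
    prim3_tendsto.1]
  ring

theorem sol_nonneg (x : ℝ) : 0 ≤ sol x := by rw [sol]; positivity

theorem sol1_abs_le (x : ℝ) : |sol1 x| ≤ sol x := by
  have h : |sinh x / cosh x| ≤ 1 := by
    rw [abs_div, abs_of_pos (cosh_pos x), div_le_one (cosh_pos x), abs_le]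
    exact ⟨by linarith [sinh_lt_cosh (-x), sinh_neg x, cosh_neg x], (sinh_lt_cosh x).le⟩
  rw [sol1, abs_mul, abs_mul, abs_of_nonneg (sol_nonneg x)]
  calc |-(1 / 2 : ℝ)| * |sinh x / cosh x| * sol x ≤ 1 * 1 * sol x := by
        gcongr
        · exact sol_nonneg x
        · norm_num
    _ = sol x := by ring

theorem sol_memLp : MemLp (fun x => (sol x : ℂ)) 2 := by
  have hm : AEStronglyMeasurable (fun x => (sol x : ℂ)) volume :=
    (Complex.continuous_ofReal.comp
      (continuous_iff_continuousAt.2 fun x => (sol_hasDeriv x).continuousAt)).aestronglyMeasurable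
  rw [memLp_two_iff_integrable_sq_norm hm]
  refine (sech_integrable.const_mul (1 / π)).congr (Eventually.of_forall fun x => ?_)
  simp only [Complex.norm_real, Real.norm_eq_abs, sq_abs, sol_sq]
  ring

theorem sol_isH1 : IsH1 (fun x => (sol x : ℂ)) (fun x => (sol1 x : ℂ)) := by
  have hc : Continuous fun x => (sol1 x : ℂ) := Complex.continuous_ofReal.comp
    (continuous_iff_continuousAt.2 fun x => (sol1_hasDeriv x).continuousAt)
  refine ⟨sol_memLp, sol_memLp.mono hc.aestronglyMeasurable (Eventually.of_forall fun x => ?_),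
    fun a b => ?_⟩
  · simp only [Complex.norm_real, Real.norm_eq_abs, abs_of_nonneg (sol_nonneg x)]
    exact sol1_abs_le x
  · exact (intervalIntegral.integral_eq_sub_of_hasDerivAt
      (fun x _ => (sol_hasDeriv x).ofReal_comp) (hc.intervalIntegrable _ _)).symm

theorem ibp_interval {φ dφ : ℝ → ℂ} (h : IsH1 φ dφ) {g g' : ℝ → ℂ}
    (hg : ∀ x, HasDerivAt g (g' x) x) (hg' : Continuous g') {a b : ℝ} (hab : a ≤ b) :
    (∫ x in a..b, (star (dφ x) * g x + star (φ x) * g' x))
      = star (φ b) * g b - star (φ a) * g a := by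
  have hgc : Continuous g := continuous_iff_continuousAt.2 fun x => (hg x).continuousAt
  obtain ⟨B, hB⟩ := (isCompact_Icc (a := a) (b := b)).exists_bound_of_continuousOn hgc.continuousOn
  obtain ⟨B', hB'⟩ :=
    (isCompact_Icc (a := a) (b := b)).exists_bound_of_continuousOn hg'.continuousOn
  have hB0 : 0 ≤ B := le_trans (norm_nonneg _) (hB a (left_mem_Icc.2 hab))
  have hB0' : 0 ≤ B' := le_trans (norm_nonneg _) (hB' a (left_mem_Icc.2 hab))
  set K := (b - a + 1) * (B + (b - a) * B' + 2 * B) with hK
  set LHS := ∫ x in a..b, (star (dφ x) * g x + star (φ x) * g' x)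
  have key : ∀ η, 0 < η → ‖LHS - (star (φ b) * g b - star (φ a) * g a)‖ ≤ η * K := by
    intro η hη
    obtain ⟨v, w, hwc, hvd, hvu, hL1, -⟩ := h.approx hab hη
    have hvc : Continuous v := continuous_iff_continuousAt.2 fun x => (hvd x).continuousAt
    have i1 : IntervalIntegrable (fun x => star (dφ x) * g x + star (φ x) * g' x) volume a b := by
      refine IntervalIntegrable.add ?_ ((h.continuous.star.mul hg').intervalIntegrable _ _)
      have := (h.intInt a b)
      exact ((intervalIntegrable_iff.2 (Complex.conjCLE.toContinuousLinearMap.integrable_comp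
        (intervalIntegrable_iff.1 this))).mul_continuousOn hgc.continuousOn)
    have i2 : IntervalIntegrable (fun x => star (w x) * g x + star (v x) * g' x) volume a b :=
      ((hwc.star.mul hgc).add (hvc.star.mul hg')).intervalIntegrable _ _
    have e : (∫ x in a..b, (star (w x) * g x + star (v x) * g' x))
        = star (v b) * g b - star (v a) * g a :=
      intervalIntegral.integral_eq_sub_of_hasDerivAt (fun x _ => (hvd x).star.fun_mul (hg x)) i2
    have d1 : ‖LHS - ∫ x in a..b, (star (w x) * g x + star (v x) * g' x)‖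
        ≤ η * (b - a + 1) * (B + (b - a) * B') := by
      rw [← intervalIntegral.integral_sub i1 i2]
      refine le_trans (intervalIntegral.norm_integral_le_integral_norm hab) ?_
      calc (∫ x in a..b, ‖star (dφ x) * g x + star (φ x) * g' x
              - (star (w x) * g x + star (v x) * g' x)‖)
          ≤ ∫ x in a..b, (B * ‖w x - dφ x‖ + η * (b - a + 1) * B') := by
            refine intervalIntegral.integral_mono_on hab (i1.sub i2).norm
              ((((hwc.intervalIntegrable _ _).sub (h.intInt a b)).norm.const_mul B).add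
                intervalIntegrable_const) fun x hx => ?_
            rw [show star (dφ x) * g x + star (φ x) * g' x - (star (w x) * g x + star (v x) * g' x)
              = star (dφ x - w x) * g x + star (φ x - v x) * g' x by simp [star_sub]; ring]
            refine (norm_add_le _ _).trans (add_le_add ?_ ?_)
            · rw [norm_mul, norm_star, norm_sub_rev, mul_comm]
              exact mul_le_mul_of_nonneg_right (hB x hx) (norm_nonneg _)
            · rw [norm_mul, norm_star, norm_sub_rev]
              exact mul_le_mul (hvu x hx) (hB' x hx) (norm_nonneg _)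
                (mul_nonneg hη.le (by linarith))
        _ ≤ _ := by
            rw [intervalIntegral.integral_add
              ((((hwc.intervalIntegrable _ _).sub (h.intInt a b)).norm.const_mul B))
              intervalIntegrable_const, intervalIntegral.integral_const_mul,
              intervalIntegral.integral_const, smul_eq_mul]
            nlinarith [mul_le_mul_of_nonneg_left hL1 hB0]
    rw [e] at d1
    have d2 : ‖(star (v b) * g b - star (v a) * g a) - (star (φ b) * g b - star (φ a) * g a)‖
        ≤ η * (b - a + 1) * (2 * B) := by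
      rw [show (star (v b) * g b - star (v a) * g a) - (star (φ b) * g b - star (φ a) * g a)
        = star (v b - φ b) * g b - star (v a - φ a) * g a by simp [star_sub]; ring]
      refine (norm_sub_le _ _).trans ?_
      rw [norm_mul, norm_mul, norm_star, norm_star]
      have hn : 0 ≤ η * (b - a + 1) := mul_nonneg hη.le (by linarith)
      have := mul_le_mul (hvu b (right_mem_Icc.2 hab)) (hB b (right_mem_Icc.2 hab))
        (norm_nonneg _) hn
      have := mul_le_mul (hvu a (left_mem_Icc.2 hab)) (hB a (left_mem_Icc.2 hab))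
        (norm_nonneg _) hn
      linarith
    have := norm_sub_le_norm_sub_add_norm_sub LHS (star (v b) * g b - star (v a) * g a)
      (star (φ b) * g b - star (φ a) * g a)
    rw [hK]; nlinarith
  rw [← sub_eq_zero, ← norm_le_zero_iff]
  have hK0 : 0 ≤ K := by rw [hK]; positivity
  refine le_of_forall_pos_le_add fun δ hδ => ?_
  have := key (δ / (K + 1)) (by positivity)
  have h2 : δ / (K + 1) * K ≤ δ := by
    rw [div_mul_eq_mul_div, div_le_iff₀ (by linarith)]; nlinarith
  linarith

theorem ibp_full {φ dφ g g' : ℝ → ℂ} (h : IsH1 φ dφ) (hg : ∀ x, HasDerivAt g (g' x) x)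
    (hg' : Continuous g') {B : ℝ} (hB : ∀ x, ‖g x‖ ≤ B)
    (hint : Integrable fun x => star (dφ x) * g x + star (φ x) * g' x) :
    (∫ x, (star (dφ x) * g x + star (φ x) * g' x)) = 0 := by
  choose bb hb1 hb2 using fun k : ℕ =>
    exists_small_right h.sq_integrable (k : ℝ) (δ := (1 / ((k : ℝ) + 1)) ^ 2) (by positivity)
  choose aa ha1 ha2 using fun k : ℕ =>
    exists_small_left h.sq_integrable (-(k : ℝ)) (δ := (1 / ((k : ℝ) + 1)) ^ 2) (by positivity)
  have hlim := intervalIntegral_tendsto_integral hint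
    (tendsto_atBot_mono (fun k => (ha1 k).le)
      (tendsto_neg_atTop_atBot.comp tendsto_natCast_atTop_atTop))
    (tendsto_atTop_mono (fun k => (hb1 k).le) tendsto_natCast_atTop_atTop)
  refine tendsto_nhds_unique hlim ?_
  rw [tendsto_zero_iff_norm_tendsto_zero]
  refine squeeze_zero (fun k => norm_nonneg _) (fun k => ?_)
    (show Tendsto (fun k : ℕ => 2 * B * (1 / ((k : ℝ) + 1))) atTop (𝓝 0) by
      simpa using (tendsto_one_div_add_atTop_nhds_zero_nat (𝕜 := ℝ)).const_mul (2 * B))
  rw [ibp_interval h hg hg' (by linarith [ha1 k, hb1 k, (Nat.cast_nonneg k : (0:ℝ) ≤ k)])]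
  refine (norm_sub_le _ _).trans ?_
  rw [norm_mul, norm_mul, norm_star, norm_star]
  have hB0 : 0 ≤ B := (norm_nonneg _).trans (hB 0)
  have p : (0:ℝ) ≤ 1 / ((k : ℝ) + 1) := by positivity
  have e1 := mul_le_mul ((sq_lt_sq₀ (norm_nonneg _) p).1 (hb2 k)).le (hB (bb k)) (norm_nonneg _) p
  have e2 := mul_le_mul ((sq_lt_sq₀ (norm_nonneg _) p).1 (ha2 k)).le (hB (aa k)) (norm_nonneg _) p
  linarith

theorem trPow_diagonal {m : ℕ} (p : ℝ) (d : Fin m → ℝ) :
    trPow p (diagonal fun a => (d a : ℂ)) = ∑ a, d a ^ p := by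
  have h : (diagonal fun a => (d a : ℂ)).IsHermitian :=
    isHermitian_diagonal_of_self_adjoint _ (funext fun a => Complex.conj_ofReal _)
  rw [trPow, dif_pos h]
  have e := h.roots_charpoly_eq_eigenvalues
  rw [Matrix.charpoly_diagonal] at e
  have e0 : (∏ i, (Polynomial.X - Polynomial.C (d i : ℂ))).roots
      = Finset.univ.val.map fun i => (d i : ℂ) := by
    rw [← Finset.prod_map_val]
    exact (congrArg Polynomial.roots (by rw [Multiset.map_map]; rfl)).trans
      (Polynomial.roots_multiset_prod_X_sub_C _)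
  rw [e0] at e
  have e' := congrArg (fun s : Multiset ℂ => (s.map fun z => z.re ^ p).sum) e
  simpa [Multiset.map_map, Function.comp_def, List.sum_ofFn, eq_comm] using e'

theorem sol_extremal {m : ℕ} (hm : 0 < m) : L11 ∈ LTRatios 1 m := by
  set a0 : Fin m := ⟨0, hm⟩
  set W : ℝ → Matrix (Fin m) (Fin m) ℂ := fun x =>
    diagonal fun a => ((if a = a0 then solPot x else 0 : ℝ) : ℂ) with hWdef
  have hp : ∀ x, 0 ≤ solPot x := fun x => by rw [solPot]; positivity
  have htr : ∀ x, trPow (1 + 1 / 2) (W x) = solPot x ^ (1 + 1 / 2 : ℝ) := fun x => by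
    rw [hWdef, trPow_diagonal, Finset.sum_eq_single a0]
    · simp
    · intro b _ hb
      rw [if_neg hb, Real.zero_rpow (by norm_num)]
    · simp
  have hpow : ∀ x, solPot x ^ (1 + 1 / 2 : ℝ) = 3 * Real.sqrt 3 / 8 * (1 / cosh x ^ 3) := by
    intro x
    have e : solPot x = (Real.sqrt 3 / (2 * cosh x)) ^ 2 := by
      rw [solPot, div_pow, Real.sq_sqrt (by norm_num : (0:ℝ) ≤ 3), mul_pow]
      have := (cosh_pos x).ne'
      field_simp
      ring
    have h0 : 0 ≤ Real.sqrt 3 / (2 * cosh x) :=
      div_nonneg (Real.sqrt_nonneg _) (by linarith [cosh_pos x])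
    rw [e, ← Real.rpow_natCast (Real.sqrt 3 / (2 * cosh x)) 2, ← Real.rpow_mul h0,
      show ((2:ℕ):ℝ) * (1 + 1 / 2) = ((3:ℕ):ℝ) by norm_num, Real.rpow_natCast, div_pow,
      pow_succ (Real.sqrt 3) 2, Real.sq_sqrt (by norm_num : (0:ℝ) ≤ 3)]
    have := (cosh_pos x).ne'
    field_simp
    ring
  have hint : Integrable fun x => trPow (1 + 1 / 2) (W x) := by
    simp only [htr, hpow]; exact sech3_integrable.const_mul _
  have hval : (∫ x, trPow (1 + 1 / 2) (W x)) = 3 * Real.sqrt 3 / 8 * (π / 2) := by
    simp only [htr, hpow, integral_const_mul, integral_sech3]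
  set u : Fin 1 → ℝ → Fin m → ℂ := fun _ x a => if a = a0 then (sol x : ℂ) else 0 with hu
  set du : Fin 1 → ℝ → Fin m → ℂ := fun _ x a => if a = a0 then (sol1 x : ℂ) else 0 with hdu
  refine ⟨W, ⟨fun x => PosSemidef.diagonal fun a => ?_, fun a b => ?_, hint⟩, ?_, 1, u, du,
    fun _ => -(1 / 4), ⟨fun i a => ?_, fun i j => ?_, fun _ => by norm_num, ?_⟩, ?_⟩
  · by_cases ha : a = a0 <;> simp [ha, hp x]
  · simp only [hWdef, Matrix.diagonal_apply]
    by_cases hab : a = b
    · simp only [if_pos hab]
      refine Complex.measurable_ofReal.comp ?_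
      by_cases ha : a = a0
      · simp only [if_pos ha, solPot]; fun_prop
      · simp only [if_neg ha]; exact measurable_const
    · simp only [if_neg hab]; exact measurable_const
  · rw [hval]; positivity
  · simp only [hu, hdu]
    by_cases ha : a = a0
    · simpa [ha] using sol_isH1
    · simp only [if_neg ha]
      exact ⟨MemLp.zero', MemLp.zero', fun c d => by simp⟩
  · rw [if_pos (Subsingleton.elim i j)]
    have e : ∀ x, star (u i x) ⬝ᵥ u j x = ((1 / π * (1 / cosh x) : ℝ) : ℂ) := fun x => by
      simp only [hu, dotProduct, Pi.star_apply]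
      rw [Finset.sum_eq_single a0 (fun b _ hb => by simp [hb]) (by simp)]
      simp only [if_true, RCLike.star_def, Complex.conj_ofReal, ← Complex.ofReal_mul]
      rw [← sq, sol_sq]; congr 1; ring
    rw [integral_congr_ae (Eventually.of_forall e), integral_complex_ofReal, integral_const_mul,
      integral_sech]
    simp [pi_ne_zero]
  · intro i φ dφ hφ
    have e1 : ∀ x, star (dφ x) ⬝ᵥ du i x = star (dφ x a0) * (sol1 x : ℂ) := fun x => by
      simp only [hdu, dotProduct, Pi.star_apply]
      rw [Finset.sum_eq_single a0 (fun b _ hb => by simp [hb]) (by simp)]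
      simp
    have e2 : ∀ x, star (φ x) ⬝ᵥ (W x *ᵥ u i x)
        = star (φ x a0) * ((solPot x * sol x : ℝ) : ℂ) := fun x => by
      simp only [hWdef, hu, dotProduct, Pi.star_apply, Matrix.mulVec_diagonal]
      rw [Finset.sum_eq_single a0 (fun b _ hb => by simp [hb]) (by simp)]
      simp
    have e3 : ∀ x, star (φ x) ⬝ᵥ u i x = star (φ x a0) * (sol x : ℂ) := fun x => by
      simp only [hu, dotProduct, Pi.star_apply]
      rw [Finset.sum_eq_single a0 (fun b _ hb => by simp [hb]) (by simp)]
      simp
    simp only [e1, e2, e3]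
    have hsc : Continuous sol := continuous_iff_continuousAt.2 fun x => (sol_hasDeriv x).continuousAt
    have hs1c : Continuous sol1 :=
      continuous_iff_continuousAt.2 fun x => (sol1_hasDeriv x).continuousAt
    have hpc : Continuous solPot :=
      continuous_const.div (continuous_cosh.pow 2) fun x => (pow_pos (cosh_pos x) 2).ne'
    have hφ0 := hφ a0
    have I1 : Integrable fun x => star (dφ x a0) * (sol1 x : ℂ) := by
      refine (hφ0.dsq_integrable.add sol_isH1.dsq_integrable).mono'
        ((Complex.continuous_conj.comp_aestronglyMeasurable hφ0.2.1.1).mul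
          (Complex.continuous_ofReal.comp hs1c).aestronglyMeasurable)
        (Eventually.of_forall fun x => ?_)
      simp only [Pi.add_apply, norm_mul, norm_star]
      nlinarith [norm_nonneg (dφ x a0), norm_nonneg ((sol1 x : ℂ)),
        sq_nonneg (‖dφ x a0‖ - ‖(sol1 x : ℂ)‖)]
    have I3 : Integrable fun x => star (φ x a0) * (sol x : ℂ) :=
      hφ0.mul_integrable sol_isH1
    have hP1 : ∀ x, solPot x ≤ 1 := fun x => by
      rw [solPot, div_le_one (pow_pos (cosh_pos x) 2)]
      nlinarith [one_le_cosh x]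
    have I2 : Integrable fun x => star (φ x a0) * ((solPot x * sol x : ℝ) : ℂ) := by
      refine I3.norm.mono' (((hφ0.continuous.star).mul
        (Complex.continuous_ofReal.comp (hpc.mul hsc))).aestronglyMeasurable)
        (Eventually.of_forall fun x => ?_)
      simp only [norm_mul, norm_star, Complex.norm_real, Real.norm_eq_abs]
      rw [abs_of_nonneg (hp x)]
      exact mul_le_mul_of_nonneg_left (mul_le_of_le_one_left (abs_nonneg _) (hP1 x)) (norm_nonneg _)
    have hg' : Continuous fun x => (((1 / 4 - solPot x) * sol x : ℝ) : ℂ) :=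
      Complex.continuous_ofReal.comp ((continuous_const.sub hpc).mul hsc)
    have hsb : ∀ x, ‖(sol1 x : ℂ)‖ ≤ 1 := fun x => by
      rw [Complex.norm_real, Real.norm_eq_abs]
      refine (sol1_abs_le x).trans ?_
      rw [sol, div_le_one (sqrtpc_pos x), Real.one_le_sqrt]
      nlinarith [one_le_cosh x, pi_gt_three]
    have hes : ∀ x, star (dφ x a0) * (sol1 x : ℂ)
        + star (φ x a0) * (((1 / 4 - solPot x) * sol x : ℝ) : ℂ)
        = star (dφ x a0) * (sol1 x : ℂ) - star (φ x a0) * ((solPot x * sol x : ℝ) : ℂ)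
          - ((-(1 / 4) : ℝ) : ℂ) * (star (φ x a0) * (sol x : ℂ)) := fun x => by push_cast; ring
    have hI : Integrable fun x => star (dφ x a0) * (sol1 x : ℂ)
        + star (φ x a0) * (((1 / 4 - solPot x) * sol x : ℝ) : ℂ) := by
      simp only [hes]; exact (I1.sub I2).sub (I3.const_mul _)
    have h0 := ibp_full hφ0 (fun x => (sol1_hasDeriv x).ofReal_comp) hg' hsb hI
    rw [integral_congr_ae (Eventually.of_forall hes), integral_sub, integral_sub I1 I2,
      integral_const_mul, sub_eq_zero] at h0
    · exact h0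
    · exact I1.sub I2
    · exact I3.const_mul _
  · rw [hval, L11]
    simp
    field_simp
    ring

end Vale.Agent.P371M
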