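import Vale.Agent.P371M.Pointwise

namespace Vale.Agent.P371M

open Matrix Finset Real MeasureTheory Filter Topology
open NormedSpace (exp)
open scoped Matrix Matrix.Norms.Operator ComplexOrder

variable {n : ℕ}

noncomputable local instance : NormedAlgebra ℝ (Matrix (Fin n) (Fin n) ℂ) := Matrix.linftyOpNormedAlgebra

section Generic

variable {𝔸 : Type*} [NormedRing 𝔸] [NormedAlgebra ℝ 𝔸] [CompleteSpace 𝔸]

theorem twoSided_apply (a b c d M : 𝔸) :
    (ContinuousLinearMap.mulLeftRight ℝ 𝔸 a b - ContinuousLinearMap.mulLeftRight ℝ 𝔸 c d) M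
      = a * M * b - c * M * d := rfl

theorem twoSided_differentiableAt {a b c d : ℝ → 𝔸} {t : ℝ} (ha : DifferentiableAt ℝ a t)
    (hb : DifferentiableAt ℝ b t) (hc : DifferentiableAt ℝ c t) (hd : DifferentiableAt ℝ d t) :
    DifferentiableAt ℝ (fun u => ContinuousLinearMap.mulLeftRight ℝ 𝔸 (a u) (b u)
      - ContinuousLinearMap.mulLeftRight ℝ 𝔸 (c u) (d u)) t :=
  (((ContinuousLinearMap.mulLeftRight ℝ 𝔸).differentiableAt.comp t ha).clm_apply hb).fun_sub
    (((ContinuousLinearMap.mulLeftRight ℝ 𝔸).differentiableAt.comp t hc).clm_apply hd)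

theorem twoSided_inverse_differentiableAt {a b c d R : ℝ → 𝔸} {t : ℝ}
    (ha : DifferentiableAt ℝ a t) (hb : DifferentiableAt ℝ b t) (hc : DifferentiableAt ℝ c t)
    (hd : DifferentiableAt ℝ d t) (hR : DifferentiableAt ℝ R t)
    (hu : IsUnit (ContinuousLinearMap.mulLeftRight ℝ 𝔸 (a t) (b t)
      - ContinuousLinearMap.mulLeftRight ℝ 𝔸 (c t) (d t))) :
    DifferentiableAt ℝ (fun u => Ring.inverse (ContinuousLinearMap.mulLeftRight ℝ 𝔸 (a u) (b u)
      - ContinuousLinearMap.mulLeftRight ℝ 𝔸 (c u) (d u)) (R u)) t := by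
  have hK := twoSided_differentiableAt ha hb hc hd
  exact (DifferentiableAt.comp t (differentiableAt_inverse (𝕜 := ℝ) hu) hK).clm_apply hR

theorem twoSided_eventually_isUnit {a b c d : ℝ → 𝔸} {t : ℝ} (ha : DifferentiableAt ℝ a t)
    (hb : DifferentiableAt ℝ b t) (hc : DifferentiableAt ℝ c t) (hd : DifferentiableAt ℝ d t)
    (hu : IsUnit (ContinuousLinearMap.mulLeftRight ℝ 𝔸 (a t) (b t)
      - ContinuousLinearMap.mulLeftRight ℝ 𝔸 (c t) (d t))) :
    ∀ᶠ u in 𝓝 t, IsUnit (ContinuousLinearMap.mulLeftRight ℝ 𝔸 (a u) (b u)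
      - ContinuousLinearMap.mulLeftRight ℝ 𝔸 (c u) (d u)) :=
  (twoSided_differentiableAt ha hb hc hd).continuousAt.preimage_mem_nhds
    (Units.isOpen.mem_nhds hu)

end Generic

theorem duhamel (A B : Matrix (Fin n) (Fin n) ℂ) :
    exp A - exp B = ∫ t in (0:ℝ)..1, exp (t • A) * (A - B) * exp ((1 - t) • B) := by
  have hd : ∀ t : ℝ, HasDerivAt (fun u : ℝ => exp (u • A) * exp ((1 - u) • B))
      (exp (t • A) * (A - B) * exp ((1 - t) • B)) t := by
    intro t
    have h1 := hasDerivAt_exp_smul_const A t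
    have h2 := (hasDerivAt_exp_smul_const' B (1 - t)).scomp t
      ((hasDerivAt_id t).const_sub (1:ℝ))
    refine (h1.mul h2).congr_deriv ?_
    simp only [neg_smul, one_smul, mul_neg, Matrix.mul_sub, Matrix.sub_mul, Matrix.mul_assoc,
      Function.comp_apply]
    abel
  rw [intervalIntegral.integral_eq_sub_of_hasDerivAt (fun t _ => hd t)]
  · simp
  · exact Continuous.intervalIntegrable (by fun_prop) _ _

theorem hasDerivAt_exp_comp {B : ℝ → Matrix (Fin n) (Fin n) ℂ}
    {B' : Matrix (Fin n) (Fin n) ℂ} {t0 : ℝ} (h : HasDerivAt B B' t0) :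
    HasDerivAt (fun t => exp (B t))
      (∫ u in (0:ℝ)..1, exp (u • B t0) * B' * exp ((1 - u) • B t0)) t0 := by
  let Φ : Matrix (Fin n) (Fin n) ℂ × Matrix (Fin n) (Fin n) ℂ → Matrix (Fin n) (Fin n) ℂ :=
    fun p => ∫ u in (0:ℝ)..1, exp (u • p.1) * p.2 * exp ((1 - u) • B t0)
  have hΦ : Continuous Φ := by
    apply intervalIntegral.continuous_parametric_intervalIntegral_of_continuous'
    simp only [Function.uncurry_def]
    fun_prop
  refine hasDerivAt_iff_tendsto_slope.2 ?_
  have h1 : Tendsto B (𝓝[≠] t0) (𝓝 (B t0)) :=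
    h.continuousAt.tendsto.mono_left nhdsWithin_le_nhds
  have h2 := hasDerivAt_iff_tendsto_slope.1 h
  refine ((hΦ.tendsto (B t0, B')).comp (h1.prodMk_nhds h2)).congr fun t => ?_
  simp only [Φ, Function.comp_apply, slope_def_module]
  rw [duhamel, ← intervalIntegral.integral_smul]
  exact intervalIntegral.integral_congr fun u _ => by
    simp only [Matrix.mul_smul, Matrix.smul_mul]

/-- Half-angle exponential. -/
noncomputable def Ep (X : Matrix (Fin n) (Fin n) ℂ) : Matrix (Fin n) (Fin n) ℂ :=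
  exp ((Complex.I / 2) • X)

/-- Inverse half-angle exponential. -/
noncomputable def Em (X : Matrix (Fin n) (Fin n) ℂ) : Matrix (Fin n) (Fin n) ℂ :=
  exp ((-(Complex.I / 2)) • X)

noncomputable def sandwich (A B : Matrix (Fin n) (Fin n) ℂ) :
    Matrix (Fin n) (Fin n) ℂ →L[ℝ] Matrix (Fin n) (Fin n) ℂ :=
  ContinuousLinearMap.mulLeftRight ℝ (Matrix (Fin n) (Fin n) ℂ) A B

/-- The sine-average map. -/
noncomputable def Kop (E F : Matrix (Fin n) (Fin n) ℂ) :
    Matrix (Fin n) (Fin n) ℂ →L[ℝ] Matrix (Fin n) (Fin n) ℂ :=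
  sandwich ((2 * Complex.I)⁻¹ • E) E - sandwich ((2 * Complex.I)⁻¹ • F) F

theorem Kop_apply (E F M : Matrix (Fin n) (Fin n) ℂ) :
    Kop E F M = (2 * Complex.I)⁻¹ • (E * M * E - F * M * F) := by
  refine (twoSided_apply (𝔸 := Matrix (Fin n) (Fin n) ℂ) _ _ _ _ M).trans ?_
  simp [smul_sub]

noncomputable def Msol (X R : Matrix (Fin n) (Fin n) ℂ) : Matrix (Fin n) (Fin n) ℂ :=
  Ring.inverse (Kop (Ep X) (Em X)) R

noncomputable def Gfun (X R : Matrix (Fin n) (Fin n) ℂ) : Matrix (Fin n) (Fin n) ℂ :=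
  (2 : ℂ)⁻¹ • (Ep X * Msol X R * Ep X + Em X * Msol X R * Em X)

noncomputable def Sfun (X R : Matrix (Fin n) (Fin n) ℂ) : ℝ := (trace (R * Gfun X R)).re

theorem trace_swap_cross (E F M E' F' M' a b : Matrix (Fin n) (Fin n) ℂ)
    (hEF : E * F = 1) (hFE : F * E = 1) (ha : F * E' = a) (hb : E' * F = b)
    (hFa : F' = -(a * F)) (hFb : F' = -(F * b)) :
    trace (((2 * Complex.I)⁻¹ • (E * M * E - F * M * F)) *
        ((2 : ℂ)⁻¹ • ((E' * M * E + E * M' * E + E * M * E')
          + (F' * M * F + F * M' * F + F * M * F'))))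
      - trace (((2 : ℂ)⁻¹ • (E * M * E + F * M * F)) *
        ((2 * Complex.I)⁻¹ • ((E' * M * E + E * M' * E + E * M * E')
          - (F' * M * F + F * M' * F + F * M * F'))))
      = Complex.I * trace (M * M * (a + b)) := by
  have l1 : ∀ Y, E * (F * Y) = Y := fun Y => by rw [← Matrix.mul_assoc, hEF, Matrix.one_mul]
  have l2 : ∀ Y, F * (E * Y) = Y := fun Y => by rw [← Matrix.mul_assoc, hFE, Matrix.one_mul]
  have t1 : trace (E * M * E * (F' * M * F)) = -trace (M * M * b) := by
    rw [hFb, show E * M * E * (-(F * b) * M * F) = -(E * (M * b * M * F)) by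
      simp only [Matrix.neg_mul, Matrix.mul_neg, Matrix.mul_assoc, l1], Matrix.trace_neg,
      Matrix.trace_mul_comm, show M * b * M * F * E = M * b * M by
      simp only [Matrix.mul_assoc, hFE, Matrix.mul_one], Matrix.trace_mul_comm (M * b) M,
      ← Matrix.mul_assoc]
  have t2 : trace (E * M * E * (F * M * F')) = -trace (M * M * a) := by
    rw [hFa, show E * M * E * (F * M * -(a * F)) = -(E * (M * M * a * F)) by
      simp only [Matrix.mul_neg, Matrix.mul_assoc, l1], Matrix.trace_neg, Matrix.trace_mul_comm,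
      show M * M * a * F * E = M * M * a by simp only [Matrix.mul_assoc, hFE, Matrix.mul_one]]
  have t3 : trace (E * M * E * (F * M' * F)) = trace (M * M') := by
    rw [show E * M * E * (F * M' * F) = E * (M * M' * F) by simp only [Matrix.mul_assoc, l1],
      Matrix.trace_mul_comm, show M * M' * F * E = M * M' by
      simp only [Matrix.mul_assoc, hFE, Matrix.mul_one]]
  have t4 : trace (F * M * F * (E' * M * E)) = trace (M * M * a) := by
    rw [show F * M * F * (E' * M * E) = F * (M * a * M * E) by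
      rw [← ha]; simp only [Matrix.mul_assoc], Matrix.trace_mul_comm,
      show M * a * M * E * F = M * a * M by simp only [Matrix.mul_assoc, hEF, Matrix.mul_one],
      Matrix.trace_mul_comm (M * a) M, ← Matrix.mul_assoc]
  have t5 : trace (F * M * F * (E * M * E')) = trace (M * M * b) := by
    rw [show F * M * F * (E * M * E') = F * (M * M * E') by simp only [Matrix.mul_assoc, l2],
      Matrix.trace_mul_comm, show M * M * E' * F = M * M * b by
      rw [← hb]; simp only [Matrix.mul_assoc]]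
  have t6 : trace (F * M * F * (E * M' * E)) = trace (M * M') := by
    rw [show F * M * F * (E * M' * E) = F * (M * M' * E) by simp only [Matrix.mul_assoc, l2],
      Matrix.trace_mul_comm, show M * M' * E * F = M * M' by
      simp only [Matrix.mul_assoc, hEF, Matrix.mul_one]]
  simp only [Matrix.smul_mul, Matrix.mul_smul, Matrix.trace_smul, Matrix.add_mul, Matrix.sub_mul,
    Matrix.mul_add, Matrix.mul_sub, Matrix.trace_add, Matrix.trace_sub, smul_eq_mul,
    t1, t2, t3, t4, t5, t6]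
  rw [show (2 * Complex.I)⁻¹ = -Complex.I / 2 by
    field_simp; rw [Complex.I_sq]; ring]
  ring

theorem trace_R_sq (E F M : Matrix (Fin n) (Fin n) ℂ) (hEF : E * F = 1) (hFE : F * E = 1) :
    let R := (2 * Complex.I)⁻¹ • (E * M * E - F * M * F)
    let G := (2 : ℂ)⁻¹ • (E * M * E + F * M * F)
    trace (R * R * R) + trace (R * G * G)
      = trace (((2 * Complex.I)⁻¹ • (E * E - F * F)) * (M * M * M)) := by
  intro R G
  have l1 : ∀ Y, E * (F * Y) = Y := fun Y => by rw [← Matrix.mul_assoc, hEF, Matrix.one_mul]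
  have l2 : ∀ Y, F * (E * Y) = Y := fun Y => by rw [← Matrix.mul_assoc, hFE, Matrix.one_mul]
  set P := E * M * E with hP
  set Q := F * M * F with hQ
  have hPQ : P * Q = E * (M * M * F) := by
    simp only [hP, hQ, Matrix.mul_assoc, l1]
  have hQP : Q * P = F * (M * M * E) := by
    simp only [hP, hQ, Matrix.mul_assoc, l2]
  have hsum : R * R + G * G = (2 : ℂ)⁻¹ • (P * Q + Q * P) := by
    simp only [R, G, Matrix.smul_mul, Matrix.mul_smul, Matrix.sub_mul, Matrix.mul_sub,
      Matrix.add_mul, Matrix.mul_add, smul_sub, smul_add, smul_smul]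
    rw [show (2 * Complex.I)⁻¹ * (2 * Complex.I)⁻¹ = -((2:ℂ)⁻¹ * (2:ℂ)⁻¹) by
      field_simp; rw [Complex.I_sq]; norm_num]
    module
  rw [Matrix.mul_assoc, Matrix.mul_assoc, ← Matrix.trace_add, ← Matrix.mul_add, hsum]
  have a1 : trace (P * (P * Q)) = trace (E * E * (M * M * M)) := by
    rw [hPQ, hP, show E * M * E * (E * (M * M * F)) = E * (M * E * E * M * M * F) by
      simp only [Matrix.mul_assoc], Matrix.trace_mul_comm,
      show M * E * E * M * M * F * E = M * (E * E * M * M) by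
      simp only [Matrix.mul_assoc, hFE, Matrix.mul_one], Matrix.trace_mul_comm]
    simp only [Matrix.mul_assoc]
  have a2 : trace (Q * (P * Q)) = trace (F * F * (M * M * M)) := by
    rw [hPQ, hQ, show F * M * F * (E * (M * M * F)) = F * (M * (M * M) * F) by
      simp only [Matrix.mul_assoc, l2], Matrix.trace_mul_comm, Matrix.mul_assoc,
      Matrix.trace_mul_comm]
    simp only [Matrix.mul_assoc]
  have a3 : trace (P * (Q * P)) = trace (E * E * (M * M * M)) := by
    rw [hQP, hP, show E * M * E * (F * (M * M * E)) = E * (M * (M * M) * E) by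
      simp only [Matrix.mul_assoc, l1], Matrix.trace_mul_comm, Matrix.mul_assoc,
      Matrix.trace_mul_comm]
    simp only [Matrix.mul_assoc]
  have a4 : trace (Q * (Q * P)) = trace (F * F * (M * M * M)) := by
    rw [hQP, hQ, show F * M * F * (F * (M * M * E)) = F * (M * F * F * M * M * E) by
      simp only [Matrix.mul_assoc], Matrix.trace_mul_comm,
      show M * F * F * M * M * E * F = M * (F * F * M * M) by
      simp only [Matrix.mul_assoc, hEF, Matrix.mul_one], Matrix.trace_mul_comm]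
    simp only [Matrix.mul_assoc]
  rw [show R = (2 * Complex.I)⁻¹ • (P - Q) from rfl]
  simp only [Matrix.smul_mul, Matrix.mul_smul, Matrix.trace_smul, Matrix.sub_mul,
    Matrix.mul_add, Matrix.trace_add, Matrix.trace_sub, smul_eq_mul, a1, a2, a3, a4]
  ring

theorem exists_diag {X : Matrix (Fin n) (Fin n) ℂ} {lo hi : ℝ}
    (h1 : (X - (lo : ℂ) • (1 : Matrix (Fin n) (Fin n) ℂ)).PosSemidef)
    (h2 : ((hi : ℂ) • (1 : Matrix (Fin n) (Fin n) ℂ) - X).PosSemidef) :
    ∃ (V W : Matrix (Fin n) (Fin n) ℂ) (x : Fin n → ℝ), V * W = 1 ∧ W * V = 1 ∧ Vᴴ = W ∧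
      X = V * diagonal (fun i => (x i : ℂ)) * W ∧ ∀ i, x i ∈ Set.Icc lo hi := by
  have hX : X.IsHermitian := by
    have h := h1.1.add (show ((lo : ℂ) • (1 : Matrix (Fin n) (Fin n) ℂ)).IsHermitian by
      ext i j
      by_cases hij : i = j
      · subst hij; simp
      · simp [hij, Ne.symm hij])
    simpa using h
  set U : Matrix (Fin n) (Fin n) ℂ := (hX.eigenvectorUnitary : Matrix (Fin n) (Fin n) ℂ)
  have hU1 : U * Uᴴ = 1 := Unitary.coe_mul_star_self hX.eigenvectorUnitary
  have hU2 : Uᴴ * U = 1 := Unitary.coe_star_mul_self hX.eigenvectorUnitary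
  have hd : X = U * diagonal (fun i => (hX.eigenvalues i : ℂ)) * Uᴴ := by
    conv_lhs => rw [hX.spectral_theorem]
    rfl
  refine ⟨U, Uᴴ, hX.eigenvalues, hU1, hU2, rfl, hd, fun i => ⟨?_, ?_⟩⟩
  · have := (h1.conjTranspose_mul_mul_same U).diag_nonneg (i := i)
    rw [hd, Matrix.mul_sub, Matrix.sub_mul, Matrix.mul_smul, Matrix.smul_mul, Matrix.mul_one, hU2,
      show Uᴴ * (U * diagonal (fun i => (hX.eigenvalues i : ℂ)) * Uᴴ) * U
        = diagonal (fun i => (hX.eigenvalues i : ℂ)) by
          simp only [Matrix.mul_assoc, hU2, Matrix.mul_one]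
          rw [← Matrix.mul_assoc, hU2, Matrix.one_mul]] at this
    have := (Complex.nonneg_iff.1 this).1
    simpa using this
  · have := (h2.conjTranspose_mul_mul_same U).diag_nonneg (i := i)
    rw [hd, Matrix.mul_sub, Matrix.sub_mul, Matrix.mul_smul, Matrix.smul_mul, Matrix.mul_one, hU2,
      show Uᴴ * (U * diagonal (fun i => (hX.eigenvalues i : ℂ)) * Uᴴ) * U
        = diagonal (fun i => (hX.eigenvalues i : ℂ)) by
          simp only [Matrix.mul_assoc, hU2, Matrix.mul_one]
          rw [← Matrix.mul_assoc, hU2, Matrix.one_mul]] at this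
    have := (Complex.nonneg_iff.1 this).1
    simpa using this

theorem exp_diag_conj {V W : Matrix (Fin n) (Fin n) ℂ} (h1 : V * W = 1) (h2 : W * V = 1)
    (z : ℂ) (x : Fin n → ℝ) :
    exp (z • (V * diagonal (fun i => (x i : ℂ)) * W))
      = V * diagonal (fun i => Complex.exp (z * x i)) * W := by
  let u : (Matrix (Fin n) (Fin n) ℂ)ˣ := ⟨V, W, h1, h2⟩
  rw [← Matrix.smul_mul, ← Matrix.mul_smul]
  refine (Matrix.exp_units_conj u _).trans ?_
  rw [← Matrix.diagonal_smul, Matrix.exp_diagonal]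
  congr 3
  funext i
  rw [Pi.exp_def, Complex.exp_eq_exp_ℂ]
  simp

section Diag

variable {V W X : Matrix (Fin n) (Fin n) ℂ} {x : Fin n → ℝ}

theorem conj_mul (h2 : W * V = 1) (A B : Matrix (Fin n) (Fin n) ℂ) :
    V * A * W * (V * B * W) = V * (A * B) * W := by
  simp only [Matrix.mul_assoc]
  rw [← Matrix.mul_assoc W V, h2, Matrix.one_mul]

theorem trace_conj (h2 : W * V = 1) (A : Matrix (Fin n) (Fin n) ℂ) :
    trace (V * A * W) = trace A := by
  rw [Matrix.trace_mul_comm, ← Matrix.mul_assoc, h2, Matrix.one_mul]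

theorem Ep_diag (h1 : V * W = 1) (h2 : W * V = 1)
    (hX : X = V * diagonal (fun i => (x i : ℂ)) * W) :
    Ep X = V * diagonal (fun i => Complex.exp (Complex.I / 2 * x i)) * W := by
  rw [hX]; exact exp_diag_conj h1 h2 _ x

theorem Em_diag (h1 : V * W = 1) (h2 : W * V = 1)
    (hX : X = V * diagonal (fun i => (x i : ℂ)) * W) :
    Em X = V * diagonal (fun i => Complex.exp (-(Complex.I / 2) * x i)) * W := by
  rw [hX]; exact exp_diag_conj h1 h2 _ x

theorem Kop_diag (h1 : V * W = 1) (h2 : W * V = 1)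
    (hX : X = V * diagonal (fun i => (x i : ℂ)) * W) (M : Matrix (Fin n) (Fin n) ℂ) :
    Kop (Ep X) (Em X) (V * M * W)
      = V * (Matrix.of fun i j => (sin ((x i + x j) / 2) : ℂ) * M i j) * W := by
  rw [Kop_apply, Ep_diag h1 h2 hX, Em_diag h1 h2 hX, conj_mul h2, conj_mul h2, conj_mul h2,
    conj_mul h2, ← Matrix.sub_mul, ← Matrix.mul_sub, ← Matrix.smul_mul, ← Matrix.mul_smul]
  congr 2
  ext i j
  simp only [Matrix.smul_apply, Matrix.sub_apply, Matrix.mul_diagonal, Matrix.diagonal_mul,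
    Matrix.of_apply, smul_eq_mul, Complex.ofReal_sin]
  have e1 : Complex.exp (Complex.I / 2 * x i) * Complex.exp (Complex.I / 2 * x j)
      = Complex.exp ((((x i + x j) / 2 : ℝ) : ℂ) * Complex.I) := by
    rw [← Complex.exp_add]; push_cast; ring_nf
  have e2 : Complex.exp (-(Complex.I / 2) * x i) * Complex.exp (-(Complex.I / 2) * x j)
      = Complex.exp (-(((x i + x j) / 2 : ℝ) : ℂ) * Complex.I) := by
    rw [← Complex.exp_add]; push_cast; ring_nf
  rw [mul_right_comm _ (M i j), e1, mul_right_comm _ (M i j), e2, Complex.sin,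
    show (2 * Complex.I)⁻¹ = -Complex.I / 2 by field_simp; rw [Complex.I_sq]; ring]
  ring

theorem Kop_isUnit (h1 : V * W = 1) (h2 : W * V = 1)
    (hX : X = V * diagonal (fun i => (x i : ℂ)) * W) (hx : ∀ i, x i ∈ Set.Ioo 0 π) :
    IsUnit (Kop (Ep X) (Em X)) := by
  refine ContinuousLinearMap.isUnit_iff_bijective.2 ?_
  have hinj : Function.Injective (Kop (Ep X) (Em X)) := by
    intro A B h
    have eA : ∀ A, V * (W * A * V) * W = A := fun A => by
      simp only [Matrix.mul_assoc, h1, Matrix.mul_one]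
      rw [← Matrix.mul_assoc, h1, Matrix.one_mul]
    rw [← eA A, ← eA B, Kop_diag h1 h2 hX, Kop_diag h1 h2 hX] at h
    rw [← eA A, ← eA B]
    congr 2
    ext i j
    have h' := congrArg (fun Y => (W * Y * V) i j) h
    have eW : ∀ A, W * (V * A * W) * V = A := fun A => by
      simp only [Matrix.mul_assoc, h2, Matrix.mul_one]
      rw [← Matrix.mul_assoc, h2, Matrix.one_mul]
    simp only [eW, Matrix.of_apply] at h'
    refine mul_left_cancel₀ ?_ h'
    exact_mod_cast (sin_pos_of_pos_of_lt_pi (by linarith [(hx i).1, (hx j).1])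
      (by linarith [(hx i).2, (hx j).2])).ne'
  exact ⟨hinj, LinearMap.surjective_of_injective
    (f := (Kop (Ep X) (Em X)).toLinearMap) hinj⟩

theorem Msol_eq (h1 : V * W = 1) (h2 : W * V = 1)
    (hX : X = V * diagonal (fun i => (x i : ℂ)) * W) (hx : ∀ i, x i ∈ Set.Ioo 0 π)
    {R M : Matrix (Fin n) (Fin n) ℂ}
    (hM : ∀ i j, (W * R * V) i j = (sin ((x i + x j) / 2) : ℂ) * M i j) :
    Msol X R = V * M * W := by
  have h := Kop_diag h1 h2 hX M
  have : V * (Matrix.of fun i j => (sin ((x i + x j) / 2) : ℂ) * M i j) * W = R := by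
    rw [show (Matrix.of fun i j => (sin ((x i + x j) / 2) : ℂ) * M i j) = W * R * V from
      Matrix.ext fun i j => (hM i j).symm]
    simp only [Matrix.mul_assoc, h1, Matrix.mul_one]
    rw [← Matrix.mul_assoc, h1, Matrix.one_mul]
  rw [this] at h
  rw [Msol, ← h, ← mul_apply_eq_comp, Ring.inverse_mul_cancel _
    (Kop_isUnit h1 h2 hX hx)]
  rfl

theorem Gfun_eq (h1 : V * W = 1) (h2 : W * V = 1)
    (hX : X = V * diagonal (fun i => (x i : ℂ)) * W) (hx : ∀ i, x i ∈ Set.Ioo 0 π)
    {R M : Matrix (Fin n) (Fin n) ℂ}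
    (hM : ∀ i j, (W * R * V) i j = (sin ((x i + x j) / 2) : ℂ) * M i j) :
    Gfun X R = V * (Matrix.of fun i j => (cos ((x i + x j) / 2) : ℂ) * M i j) * W := by
  rw [Gfun, Msol_eq h1 h2 hX hx hM, Ep_diag h1 h2 hX, Em_diag h1 h2 hX, conj_mul h2, conj_mul h2,
    conj_mul h2, conj_mul h2, ← Matrix.add_mul, ← Matrix.mul_add, ← Matrix.smul_mul,
    ← Matrix.mul_smul]
  congr 2
  ext i j
  simp only [Matrix.smul_apply, Matrix.add_apply, Matrix.mul_diagonal, Matrix.diagonal_mul,
    Matrix.of_apply, smul_eq_mul, Complex.ofReal_cos]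
  have e1 : Complex.exp (Complex.I / 2 * x i) * Complex.exp (Complex.I / 2 * x j)
      = Complex.exp ((((x i + x j) / 2 : ℝ) : ℂ) * Complex.I) := by
    rw [← Complex.exp_add]; push_cast; ring_nf
  have e2 : Complex.exp (-(Complex.I / 2) * x i) * Complex.exp (-(Complex.I / 2) * x j)
      = Complex.exp (-(((x i + x j) / 2 : ℝ) : ℂ) * Complex.I) := by
    rw [← Complex.exp_add]; push_cast; ring_nf
  rw [mul_right_comm _ (M i j), e1, mul_right_comm _ (M i j), e2, Complex.cos]
  ring

end Diag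

/-- The divided matrix. -/
noncomputable def Mdiag (V W R : Matrix (Fin n) (Fin n) ℂ) (x : Fin n → ℝ) :
    Matrix (Fin n) (Fin n) ℂ :=
  Matrix.of fun i j => (W * R * V) i j / (sin ((x i + x j) / 2) : ℂ)

theorem Mdiag_spec {V W R : Matrix (Fin n) (Fin n) ℂ} {x : Fin n → ℝ}
    (hx : ∀ i, x i ∈ Set.Ioo 0 π) :
    ∀ i j, (W * R * V) i j = (sin ((x i + x j) / 2) : ℂ) * Mdiag V W R x i j := by
  intro i j
  have h0 : (sin ((x i + x j) / 2) : ℂ) ≠ 0 := by
    exact_mod_cast (sin_pos_of_pos_of_lt_pi (by linarith [(hx i).1, (hx j).1])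
      (by linarith [(hx i).2, (hx j).2])).ne'
  simp only [Mdiag, Matrix.of_apply]
  field_simp

theorem Mdiag_herm {V W R : Matrix (Fin n) (Fin n) ℂ} {x : Fin n → ℝ}
    (hR : (W * R * V).IsHermitian) : (Mdiag V W R x).IsHermitian := by
  ext i j
  simp only [Mdiag, Matrix.conjTranspose_apply, Matrix.of_apply, RCLike.star_def, map_div₀,
    Complex.conj_ofReal]
  rw [← RCLike.star_def, hR.apply i j, add_comm (x i)]

theorem Sfun_bound {X R : Matrix (Fin n) (Fin n) ℂ} {ε : ℝ} (hε : 0 < ε) (hε2 : ε ≤ π / 2)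
    (h1 : (X - (ε : ℂ) • (1 : Matrix (Fin n) (Fin n) ℂ)).PosSemidef)
    (h2 : (((π - ε : ℝ) : ℂ) • (1 : Matrix (Fin n) (Fin n) ℂ) - X).PosSemidef)
    (hR : R.IsHermitian) : |Sfun X R| ≤ (trace (R * R)).re / sin ε := by
  obtain ⟨V, W, x, hVW, hWV, hVs, hX, hxm⟩ := exists_diag h1 h2
  have hx : ∀ i, x i ∈ Set.Ioo 0 π := fun i =>
    ⟨lt_of_lt_of_le hε (hxm i).1, by linarith [(hxm i).2]⟩
  set T := W * R * V with hT
  have hTH : T.IsHermitian := by
    rw [hT, ← hVs]
    exact isHermitian_conjTranspose_mul_mul V hR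
  have hback : R = V * T * W := by
    simp only [hT, Matrix.mul_assoc, hVW, Matrix.mul_one]
    rw [← Matrix.mul_assoc, hVW, Matrix.one_mul]
  have eS : Sfun X R = ∑ i, ∑ j,
      cos ((x i + x j) / 2) / sin ((x i + x j) / 2) * Complex.normSq (T i j) := by
    rw [Sfun, Gfun_eq hVW hWV hX hx (Mdiag_spec hx)]
    nth_rewrite 1 [hback]
    rw [conj_mul hWV, trace_conj hWV, Matrix.trace, Complex.re_sum]
    refine Finset.sum_congr rfl fun i _ => ?_
    rw [Matrix.diag_apply, Matrix.mul_apply, Complex.re_sum]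
    refine Finset.sum_congr rfl fun j _ => ?_
    simp only [Mdiag, Matrix.of_apply, ← hT]
    rw [← hTH.apply j i, RCLike.star_def, add_comm (x j),
      show T i j * ((cos ((x i + x j) / 2) : ℂ) * (starRingEnd ℂ (T i j) /
          (sin ((x i + x j) / 2) : ℂ)))
        = ((cos ((x i + x j) / 2) / sin ((x i + x j) / 2) : ℝ) : ℂ)
          * (T i j * starRingEnd ℂ (T i j)) by push_cast; ring,
      Complex.mul_conj, ← Complex.ofReal_mul, Complex.ofReal_re]
  have eR : (trace (R * R)).re = ∑ i, ∑ j, Complex.normSq (T i j) := by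
    rw [hback, conj_mul hWV, trace_conj hWV, Matrix.trace, Complex.re_sum]
    refine Finset.sum_congr rfl fun i _ => ?_
    rw [Matrix.diag_apply, Matrix.mul_apply, Complex.re_sum]
    refine Finset.sum_congr rfl fun j _ => ?_
    rw [← hTH.apply j i, RCLike.star_def, Complex.mul_conj, Complex.ofReal_re]
  rw [eS, eR, Finset.sum_div]
  refine (Finset.abs_sum_le_sum_abs _ _).trans (Finset.sum_le_sum fun i _ => ?_)
  rw [Finset.sum_div]
  refine (Finset.abs_sum_le_sum_abs _ _).trans (Finset.sum_le_sum fun j _ => ?_)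
  rw [abs_mul, abs_of_nonneg (Complex.normSq_nonneg _), div_eq_inv_mul (Complex.normSq (T i j))]
  refine mul_le_mul_of_nonneg_right ?_ (Complex.normSq_nonneg _)
  have hs : sin ε ≤ sin ((x i + x j) / 2) := by
    rcases le_total ((x i + x j) / 2) (π / 2) with h | h
    · exact sin_le_sin_of_le_of_le_pi_div_two (by linarith) h
        (by linarith [(hxm i).1, (hxm j).1])
    · rw [← Real.sin_pi_sub ((x i + x j) / 2)]
      exact sin_le_sin_of_le_of_le_pi_div_two (by linarith) (by linarith)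
        (by linarith [(hxm i).2, (hxm j).2])
  have hs0 : 0 < sin ε := sin_pos_of_pos_of_lt_pi hε (by linarith [pi_pos])
  rw [abs_div, abs_of_pos (lt_of_lt_of_le hs0 hs)]
  calc |cos ((x i + x j) / 2)| / sin ((x i + x j) / 2)
      ≤ 1 / sin ((x i + x j) / 2) := by
        gcongr
        · exact (lt_of_lt_of_le hs0 hs).le
        · exact abs_cos_le_one _
    _ ≤ 1 / sin ε := one_div_le_one_div_of_le hs0 hs
    _ = (sin ε)⁻¹ := one_div _

theorem Em_mul_Ep (X : Matrix (Fin n) (Fin n) ℂ) : Em X * Ep X = 1 ∧ Ep X * Em X = 1 := by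
  have hc : Commute ((-(Complex.I / 2)) • X) ((Complex.I / 2) • X) :=
    ((Commute.refl X).smul_left _).smul_right _
  constructor
  · rw [Em, Ep, ← Matrix.exp_add_of_commute _ _ hc]
    simp
  · rw [Em, Ep, ← Matrix.exp_add_of_commute _ _ hc.symm]
    simp

/-- Entry as a continuous real-linear map. -/
noncomputable def entryL (i j : Fin n) : Matrix (Fin n) (Fin n) ℂ →L[ℝ] ℂ :=
  LinearMap.toContinuousLinearMap (Matrix.entryLinearMap ℝ ℂ i j)

theorem entryL_apply (i j : Fin n) (A : Matrix (Fin n) (Fin n) ℂ) : entryL i j A = A i j := rfl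

theorem exp_deriv_entry {V W X B' : Matrix (Fin n) (Fin n) ℂ} {x : Fin n → ℝ}
    (h1 : V * W = 1) (h2 : W * V = 1) (hX : X = V * diagonal (fun i => (x i : ℂ)) * W)
    (z : ℂ) (i j : Fin n) :
    (W * (∫ u in (0:ℝ)..1, exp (u • (z • X)) * B' * exp ((1 - u) • (z • X))) * V) i j
      = ∫ u in (0:ℝ)..1, Complex.exp ((u : ℂ) * z * x i) * (W * B' * V) i j
          * Complex.exp (((1 - u : ℝ) : ℂ) * z * x j) := by
  have e : ∀ u : ℝ, exp (u • (z • X))
      = V * diagonal (fun i => Complex.exp ((u : ℂ) * z * x i)) * W := fun u => by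
    rw [← Complex.coe_smul, smul_smul, hX, exp_diag_conj h1 h2]
  let L : Matrix (Fin n) (Fin n) ℂ →L[ℝ] ℂ :=
    (entryL i j).comp (ContinuousLinearMap.mulLeftRight ℝ (Matrix (Fin n) (Fin n) ℂ) W V)
  have hL : ∀ A, L A = (W * A * V) i j := fun A => rfl
  rw [← hL]
  refine (L.intervalIntegral_comp_comm ?_).symm.trans ?_
  swap
  · refine intervalIntegral.integral_congr fun u _ => ?_
    refine (hL _).trans ?_
    rw [e, e]
    rw [show W * (V * diagonal (fun i => Complex.exp ((u : ℂ) * z * x i)) * W * B' *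
        (V * diagonal (fun i => Complex.exp (((1 - u : ℝ) : ℂ) * z * x i)) * W)) * V
        = (W * V) * (diagonal (fun i => Complex.exp ((u : ℂ) * z * x i)) * (W * B' * V) *
          diagonal (fun i => Complex.exp (((1 - u : ℝ) : ℂ) * z * x i))) * (W * V) by
        simp only [Matrix.mul_assoc]]
    rw [h2, Matrix.one_mul, Matrix.mul_one, Matrix.mul_diagonal, Matrix.diagonal_mul]
  · exact Continuous.intervalIntegrable (by fun_prop) _ _

theorem cross_re_le {V W X R M E' : Matrix (Fin n) (Fin n) ℂ} {x : Fin n → ℝ} {c : ℝ}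
    (hc : 0 ≤ c) (h1 : V * W = 1) (h2 : W * V = 1)
    (hX : X = V * diagonal (fun i => (x i : ℂ)) * W) (hx : ∀ i, x i ∈ Set.Ioo 0 π)
    (hR : (W * R * V).PosSemidef) (hM : M.IsHermitian)
    (hRM : ∀ i j, (W * R * V) i j = (sin ((x i + x j) / 2) : ℂ) * M i j)
    (hE' : E' = ∫ u in (0:ℝ)..1, exp (u • ((Complex.I / 2) • X))
      * ((Complex.I / 2) • ((c : ℂ) • R)) * exp ((1 - u) • ((Complex.I / 2) • X))) :
    (Complex.I * trace (V * M * W * (V * M * W) * (Em X * E' + E' * Em X))).re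
      ≤ -c * ∑ i, sin (x i) * ((M * M * M) i i).re := by
  set w := fun i => Complex.exp (-(Complex.I / 2) * x i) with hw
  set P := W * E' * V with hP
  have hback : E' = V * P * W := by
    simp only [hP, Matrix.mul_assoc, h1, Matrix.mul_one]
    rw [← Matrix.mul_assoc, h1, Matrix.one_mul]
  rw [Em_diag h1 h2 hX, hback, conj_mul h2, conj_mul h2, conj_mul h2, ← Matrix.add_mul,
    ← Matrix.mul_add, conj_mul h2, trace_conj h2]
  have hPij : ∀ i j, (w i + w j) * P i j
      = Complex.I / 2 * c * (W * R * V) i j *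
        ((∫ u in (0:ℝ)..1, 2 * cos (u * ((x i - x j) / 2)) : ℝ) : ℂ) := by
    intro i j
    rw [hP, hE', exp_deriv_entry h1 h2 hX]
    simp only [Matrix.mul_smul, Matrix.smul_mul, Matrix.smul_apply, smul_eq_mul]
    set K := Complex.I / 2 * ((c : ℂ) * (W * R * V) i j) with hK
    have eA : ∀ u : ℝ, w i * (Complex.exp ((u : ℂ) * (Complex.I / 2) * x i) * K
        * Complex.exp (((1 - u : ℝ) : ℂ) * (Complex.I / 2) * x j))
        = K * Complex.exp (-(((1 - u) * ((x i - x j) / 2) : ℝ) : ℂ) * Complex.I) := fun u => by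
      rw [show ∀ a b d : ℂ, a * (b * K * d) = K * (a * b * d) from fun a b d => by ring, hw,
        ← Complex.exp_add, ← Complex.exp_add]
      congr 2
      push_cast; ring
    have eB : ∀ u : ℝ, w j * (Complex.exp ((u : ℂ) * (Complex.I / 2) * x i) * K
        * Complex.exp (((1 - u : ℝ) : ℂ) * (Complex.I / 2) * x j))
        = K * Complex.exp (((u * ((x i - x j) / 2) : ℝ) : ℂ) * Complex.I) := fun u => by
      rw [show ∀ a b d : ℂ, a * (b * K * d) = K * (a * b * d) from fun a b d => by ring, hw,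
        ← Complex.exp_add, ← Complex.exp_add]
      congr 2
      push_cast; ring
    rw [add_mul, ← intervalIntegral.integral_const_mul, ← intervalIntegral.integral_const_mul]
    simp only [eA, eB]
    have hsub : ∫ u in (0:ℝ)..1,
        K * Complex.exp (-(((1 - u) * ((x i - x j) / 2) : ℝ) : ℂ) * Complex.I)
        = ∫ u in (0:ℝ)..1,
          K * Complex.exp (-((u * ((x i - x j) / 2) : ℝ) : ℂ) * Complex.I) := by
      have := intervalIntegral.integral_comp_sub_left (fun u : ℝ =>
        K * Complex.exp (-((u * ((x i - x j) / 2) : ℝ) : ℂ) * Complex.I)) (1:ℝ) (a := 0) (b := 1)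
      simpa using this
    rw [hsub, ← intervalIntegral.integral_add
      (Continuous.intervalIntegrable (by fun_prop) _ _)
      (Continuous.intervalIntegrable (by fun_prop) _ _),
      ← intervalIntegral.integral_ofReal, ← intervalIntegral.integral_const_mul]
    refine intervalIntegral.integral_congr fun u _ => ?_
    rw [← mul_add, hK, Complex.ofReal_mul 2, Complex.ofReal_cos, Complex.ofReal_ofNat,
      Complex.two_cos]
    ring
  have key : (Complex.I * trace (M * M * (diagonal w * P + P * diagonal w))).re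
      = -c * ∫ u in (0:ℝ)..1, phi x M u := by
    have hint : ∀ i j, IntervalIntegrable (fun u => cos (u * ((x i - x j) / 2))
        * sin ((x i + x j) / 2) * (M i j * (M * M) j i).re) volume 0 1 := fun i j =>
      Continuous.intervalIntegrable (by fun_prop) _ _
    rw [Matrix.trace, Finset.mul_sum, Complex.re_sum]
    unfold phi
    rw [intervalIntegral.integral_finsetSum (fun i _ =>
      Continuous.intervalIntegrable (by fun_prop) _ _), Finset.mul_sum]
    simp only [Matrix.diag_apply, Matrix.mul_apply (M := M * M), Finset.mul_sum, Complex.re_sum,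
      intervalIntegral.integral_finsetSum (fun j _ => hint _ j)]
    rw [Finset.sum_comm]
    refine Finset.sum_congr rfl fun i _ => Finset.sum_congr rfl fun j _ => ?_
    rw [Matrix.add_apply, Matrix.diagonal_mul, Matrix.mul_diagonal, mul_comm (P i j), ← add_mul,
      hPij, hRM, intervalIntegral.integral_mul_const, intervalIntegral.integral_mul_const,
      intervalIntegral.integral_const_mul]
    simp only [Complex.mul_re, Complex.mul_im, Complex.ofReal_re, Complex.ofReal_im,
      Complex.I_re, Complex.I_im, Complex.div_ofNat_re, Complex.div_ofNat_im]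
    ring
  rw [key]
  have hmono : phi x M 1 ≤ ∫ u in (0:ℝ)..1, phi x M u := by
    have := intervalIntegral.integral_mono_on (μ := volume) (zero_le_one (α := ℝ))
      (intervalIntegrable_const (c := phi x M 1))
      ((phi_continuous x M).intervalIntegrable _ _)
      (fun u hu => phi_ge_one hx hR hM hRM hu)
    simpa using this
  rw [phi_one] at hmono
  nlinarith

theorem deriv_bound {m : ℕ} {X R : ℝ → Matrix (Fin n) (Fin n) ℂ}
    {A A' : Matrix (Fin m) (Fin n) ℂ} {t c ε : ℝ} (hc : 0 ≤ c) (hε : 0 < ε)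
    (hX : HasDerivAt X ((c : ℂ) • R t) t)
    (hR : HasDerivAt R (A'ᴴ * A + Aᴴ * A') t) (hRA : R t = Aᴴ * A)
    (h1 : (X t - (ε : ℂ) • (1 : Matrix (Fin n) (Fin n) ℂ)).PosSemidef)
    (h2 : (((π - ε : ℝ) : ℂ) • (1 : Matrix (Fin n) (Fin n) ℂ) - X t).PosSemidef) :
    ∃ s', HasDerivAt (fun u => Sfun (X u) (R u)) s' t ∧
      c / 4 * s' + c ^ 2 / 4 * (trace (R t * R t * R t)).re ≤ (trace (A'ᴴ * A')).re := by
  obtain ⟨V, W, x, hVW, hWV, hVs, hXd, hxm⟩ := exists_diag h1 h2
  have hx : ∀ i, x i ∈ Set.Ioo 0 π := fun i =>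
    ⟨lt_of_lt_of_le hε (hxm i).1, by linarith [(hxm i).2]⟩
  have hEp := (hasDerivAt_exp_comp (hX.const_smul (Complex.I / 2)))
  have hEm := (hasDerivAt_exp_comp (hX.const_smul (-(Complex.I / 2))))
  set E' : Matrix (Fin n) (Fin n) ℂ := ∫ u in (0:ℝ)..1, exp (u • ((Complex.I / 2) • X t))
    * ((Complex.I / 2) • ((c : ℂ) • R t)) * exp ((1 - u) • ((Complex.I / 2) • X t)) with hE'
  have hE : HasDerivAt (fun u => Ep (X u)) E' t := hEp
  have hFd : DifferentiableAt ℝ (fun u => Em (X u)) t := hEm.differentiableAt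
  set F' := deriv (fun u => Em (X u)) t with hF'
  have hF : HasDerivAt (fun u => Em (X u)) F' t := hFd.hasDerivAt
  have hunit : IsUnit (Kop (Ep (X t)) (Em (X t))) := Kop_isUnit hVW hWV hXd hx
  have hsc : ∀ {f : ℝ → Matrix (Fin n) (Fin n) ℂ}, DifferentiableAt ℝ f t →
      DifferentiableAt ℝ (fun u => (2 * Complex.I)⁻¹ • f u) t :=
    fun hf => hf.fun_const_smul _
  have hMd : DifferentiableAt ℝ (fun u => Msol (X u) (R u)) t :=
    twoSided_inverse_differentiableAt (hsc hE.differentiableAt) hE.differentiableAt (hsc hFd) hFd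
      hR.differentiableAt hunit
  set M' := deriv (fun u => Msol (X u) (R u)) t with hM'
  have hM : HasDerivAt (fun u => Msol (X u) (R u)) M' t := hMd.hasDerivAt
  set E := Ep (X t) with hEdef
  set F := Em (X t) with hFdef
  set M := Msol (X t) (R t) with hMdef
  obtain ⟨hFE, hEF⟩ := Em_mul_Ep (X t)
  have hEFd : E' * F + E * F' = 0 := by
    refine (hE.mul hF).unique ?_
    have : (fun u => Ep (X u) * Em (X u)) = fun _ => (1 : Matrix (Fin n) (Fin n) ℂ) :=
      funext fun u => (Em_mul_Ep (X u)).2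
    rw [show ((fun u => Ep (X u)) * fun u => Em (X u)) = fun u => Ep (X u) * Em (X u) from rfl,
      this]
    exact hasDerivAt_const _ _
  have hFb : F' = -(F * (E' * F)) := by
    have : F * (E' * F + E * F') = 0 := by rw [hEFd, Matrix.mul_zero]
    rw [Matrix.mul_add, ← Matrix.mul_assoc F E, hFE, Matrix.one_mul] at this
    exact eq_neg_of_add_eq_zero_right this
  have hFa : F' = -((F * E') * F) := by rw [hFb, Matrix.mul_assoc]
  set XI' := E' * M * E + E * M' * E + E * M * E' with hXI'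
  set XB' := F' * M * F + F * M' * F + F * M * F' with hXB'
  have hXI : HasDerivAt (fun u => Ep (X u) * Msol (X u) (R u) * Ep (X u)) XI' t := by
    refine ((hE.mul hM).mul hE).congr_deriv ?_
    simp only [hXI', Matrix.add_mul, Pi.mul_apply, ← hEdef, ← hMdef]
  have hXB : HasDerivAt (fun u => Em (X u) * Msol (X u) (R u) * Em (X u)) XB' t := by
    refine ((hF.mul hM).mul hF).congr_deriv ?_
    simp only [hXB', Matrix.add_mul, Pi.mul_apply, ← hFdef, ← hMdef]
  have hKR : ∀ᶠ u in 𝓝 t, R u = (2 * Complex.I)⁻¹ •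
      (Ep (X u) * Msol (X u) (R u) * Ep (X u) - Em (X u) * Msol (X u) (R u) * Em (X u)) := by
    have hK : ∀ᶠ u in 𝓝 t, IsUnit (Kop (Ep (X u)) (Em (X u))) :=
      twoSided_eventually_isUnit (hsc hE.differentiableAt) hE.differentiableAt (hsc hFd) hFd hunit
    filter_upwards [hK] with u hu
    rw [← Kop_apply, Msol, ← mul_apply_eq_comp, Ring.mul_inverse_cancel _ hu]
    rfl
  have hR'eq : A'ᴴ * A + Aᴴ * A' = (2 * Complex.I)⁻¹ • (XI' - XB') :=
    hR.unique (((hXI.fun_sub hXB).fun_const_smul (2 * Complex.I)⁻¹).congr_of_eventuallyEq hKR)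
  have hRe : R t = (2 * Complex.I)⁻¹ • (E * M * E - F * M * F) := hKR.self_of_nhds
  have hG : HasDerivAt (fun u => Gfun (X u) (R u)) ((2 : ℂ)⁻¹ • (XI' + XB')) t :=
    (hXI.fun_add hXB).fun_const_smul (2 : ℂ)⁻¹
  let τ : Matrix (Fin n) (Fin n) ℂ →L[ℝ] ℝ := Complex.reCLM.comp
    (LinearMap.toContinuousLinearMap (Matrix.traceLinearMap (Fin n) ℝ ℂ))
  set G := Gfun (X t) (R t) with hGdef
  set R' := A'ᴴ * A + Aᴴ * A' with hR'
  refine ⟨τ (R' * G + R t * ((2 : ℂ)⁻¹ • (XI' + XB'))),
    τ.hasFDerivAt.comp_hasDerivAt t (hR.mul hG), ?_⟩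
  have hτ : ∀ Y, τ Y = (trace Y).re := fun Y => rfl
  rw [hτ, Matrix.trace_add]
  have hGe : G = (2 : ℂ)⁻¹ • (E * M * E + F * M * F) := rfl
  have hcross := trace_swap_cross E F M E' F' M' (F * E') (E' * F) hEF hFE rfl rfl hFa hFb
  rw [← hRe, ← hGe, ← hXI', ← hXB', ← hR'eq] at hcross
  have h2e : trace (R t * ((2 : ℂ)⁻¹ • (XI' + XB')))
      = trace (R' * G) + Complex.I * trace (M * M * (F * E' + E' * F)) := by
    rw [← hcross, Matrix.trace_mul_comm R' G]
    ring
  rw [h2e]
  have hT : (W * R t * V).PosSemidef := by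
    rw [hRA, ← hVs, show Vᴴ * (Aᴴ * A) * V = (A * V)ᴴ * (A * V) by
      rw [Matrix.conjTranspose_mul]; simp only [Matrix.mul_assoc]]
    exact posSemidef_conjTranspose_mul_self _
  set M0 := Mdiag V W (R t) x with hM0
  have hM0s := Mdiag_spec (V := V) (W := W) (R := R t) hx
  have hM0h : M0.IsHermitian := Mdiag_herm hT.1
  have hMe : M = V * M0 * W := Msol_eq hVW hWV hXd hx hM0s
  have hcr : (Complex.I * trace (M * M * (F * E' + E' * F))).re
      ≤ -c * ∑ i, sin (x i) * ((M0 * M0 * M0) i i).re := by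
    rw [hMe]
    exact cross_re_le hc hVW hWV hXd hx hT hM0h hM0s rfl
  have hcube : (trace (R t * R t * R t)).re + (trace (R t * G * G)).re
      = ∑ i, sin (x i) * ((M0 * M0 * M0) i i).re := by
    have := trace_R_sq E F M hEF hFE
    simp only [← hRe, ← hGe] at this
    rw [← Complex.add_re, this, hMe, conj_mul hWV, conj_mul hWV, hEdef, hFdef,
      Ep_diag hVW hWV hXd, Em_diag hVW hWV hXd, conj_mul hWV, conj_mul hWV, ← Matrix.sub_mul,
      ← Matrix.mul_sub, ← Matrix.smul_mul, ← Matrix.mul_smul, conj_mul hWV, trace_conj hWV,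
      Matrix.diagonal_mul_diagonal, Matrix.diagonal_mul_diagonal, Matrix.diagonal_sub,
      ← Matrix.diagonal_smul, Matrix.trace, Complex.re_sum]
    refine Finset.sum_congr rfl fun i _ => ?_
    rw [Matrix.diag_apply, Matrix.diagonal_mul, Pi.smul_apply, smul_eq_mul,
      show (2 * Complex.I)⁻¹ * (Complex.exp (Complex.I / 2 * x i) * Complex.exp
        (Complex.I / 2 * x i) - Complex.exp (-(Complex.I / 2) * x i) * Complex.exp
        (-(Complex.I / 2) * x i)) = ((sin (x i) : ℝ) : ℂ) by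
        rw [← Complex.exp_add, ← Complex.exp_add, Complex.ofReal_sin, Complex.sin,
          show Complex.I / 2 * (x i : ℂ) + Complex.I / 2 * (x i : ℂ) = (x i : ℂ) * Complex.I
            by ring,
          show -(Complex.I / 2) * (x i : ℂ) + -(Complex.I / 2) * (x i : ℂ)
            = -(x i : ℂ) * Complex.I by ring,
          show (2 * Complex.I)⁻¹ = -Complex.I / 2 by field_simp; rw [Complex.I_sq]; ring]
        ring, Complex.re_ofReal_mul]
  have hGH : G.IsHermitian := by
    rw [hGdef, Gfun_eq hVW hWV hXd hx hM0s, ← hVs]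
    apply isHermitian_mul_mul_conjTranspose
    ext i j
    simp only [Matrix.conjTranspose_apply, Matrix.of_apply, star_mul', RCLike.star_def,
      Complex.conj_ofReal]
    rw [hVs, ← hM0, ← RCLike.star_def, hM0h.apply i j, add_comm (x j)]
  have hsq : 0 ≤ (trace (A'ᴴ * A')).re - c / 2 * (trace (R' * G)).re
      + c ^ 2 / 4 * (trace (R t * G * G)).re := by
    have := (Complex.nonneg_iff.1 (posSemidef_conjTranspose_mul_self
      (A' - ((c / 2 : ℝ) : ℂ) • (A * G))).trace_nonneg).1
    rw [Matrix.conjTranspose_sub, Matrix.conjTranspose_smul, Matrix.conjTranspose_mul,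
      hGH.eq] at this
    simp only [Matrix.sub_mul, Matrix.mul_sub, Matrix.smul_mul, Matrix.mul_smul,
      Matrix.trace_sub, Matrix.trace_smul, RCLike.star_def, Complex.conj_ofReal,
      smul_eq_mul, Complex.sub_re, Complex.re_ofReal_mul] at this
    have e1 : trace (G * Aᴴ * A') + trace (A'ᴴ * (A * G)) = trace (R' * G) := by
      rw [hR', Matrix.add_mul, Matrix.trace_add, Matrix.mul_assoc A'ᴴ A G,
        Matrix.mul_assoc G, Matrix.trace_mul_comm G (Aᴴ * A')]
      ring
    have e2 : trace (G * Aᴴ * (A * G)) = trace (R t * G * G) := by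
      rw [hRA, Matrix.mul_assoc G, Matrix.trace_mul_comm G]
      simp only [Matrix.mul_assoc]
    rw [← e1, ← e2, Complex.add_re]
    linarith
  simp only [Complex.add_re] at *
  nlinarith

end Vale.Agent.P371M
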