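import Vale.Agent.P371M.Calculus

namespace Vale.Agent.P371M

open Matrix Finset Real MeasureTheory Filter Topology Set
open scoped Matrix Matrix.Norms.Operator ComplexOrder

variable {n m : ℕ}

noncomputable local instance : NormedAlgebra ℝ (Matrix (Fin n) (Fin n) ℂ) :=
  Matrix.linftyOpNormedAlgebra

theorem hasDerivAt_matrix {f : ℝ → Matrix (Fin n) (Fin n) ℂ} {f' : Matrix (Fin n) (Fin n) ℂ}
    {t : ℝ} (h : ∀ i j, HasDerivAt (fun u => f u i j) (f' i j) t) : HasDerivAt f f' t := by
  have e : ∀ A : Matrix (Fin n) (Fin n) ℂ,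
      A = ∑ i, ∑ j, A i j • Matrix.single i j (1 : ℂ) := fun A => by
    conv_lhs => rw [Matrix.matrix_eq_sum_single A]
    simp [Matrix.smul_single]
  rw [show f = fun u => ∑ i, ∑ j, f u i j • Matrix.single i j (1 : ℂ) from funext fun u => e (f u),
    e f']
  exact HasDerivAt.fun_sum fun i _ => HasDerivAt.fun_sum fun j _ => (h i j).smul_const _

theorem psd_integral {f : ℝ → Matrix (Fin n) (Fin n) ℂ} (hf : Continuous f)
    (hp : ∀ x, (f x).PosSemidef) {a b : ℝ} (hab : a ≤ b) :
    (∫ x in a..b, f x).PosSemidef := by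
  have he : ∀ i j, (∫ x in a..b, f x) i j = ∫ x in a..b, f x i j := fun i j => by
    exact (entryL_apply i j _).symm.trans
      ((entryL i j).intervalIntegral_comp_comm (hf.intervalIntegrable _ _)).symm
  refine PosSemidef.of_dotProduct_mulVec_nonneg ?_ ?_
  · ext i j
    rw [Matrix.conjTranspose_apply, he, he, RCLike.star_def,
      intervalIntegral.integral_of_le hab, intervalIntegral.integral_of_le hab, ← integral_conj]
    exact integral_congr_ae (Eventually.of_forall fun x => (hp x).1.apply i j)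
  · intro v
    let L : Matrix (Fin n) (Fin n) ℂ →L[ℝ] ℂ :=
      ∑ i, ∑ j, (star (v i) * v j) • entryL i j
    have hL : ∀ A, L A = star v ⬝ᵥ (A *ᵥ v) := fun A => by
      simp only [L, _root_.sum_apply, _root_.smul_apply, entryL_apply, dotProduct, mulVec,
        Finset.mul_sum, Pi.star_apply, smul_eq_mul]
      exact Finset.sum_congr rfl fun i _ => Finset.sum_congr rfl fun j _ => by ring
    rw [← hL]
    refine le_of_le_of_eq ?_ (L.intervalIntegral_comp_comm (hf.intervalIntegrable _ _))
    rw [Complex.nonneg_iff]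
    have h0 : ∀ x, 0 ≤ L (f x) := fun x => by rw [hL]; exact (hp x).dotProduct_mulVec_nonneg v
    have hi : IntervalIntegrable (fun x => L (f x)) volume a b :=
      (L.continuous.comp hf).intervalIntegrable _ _
    constructor
    · refine le_of_le_of_eq ?_ (Complex.reCLM.intervalIntegral_comp_comm hi)
      exact intervalIntegral.integral_nonneg hab fun x _ => (Complex.nonneg_iff.1 (h0 x)).1
    · refine Eq.trans ?_ (Complex.imCLM.intervalIntegral_comp_comm hi)
      have hz : ∀ x, Complex.imCLM (L (f x)) = 0 := fun x => (Complex.nonneg_iff.1 (h0 x)).2.symm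
      exact ((intervalIntegral.integral_congr (g := fun _ => (0 : ℝ)) fun x _ => hz x).trans
        intervalIntegral.integral_zero).symm

/-- The Gram density of a family. -/
def Rmat (A : Matrix (Fin m) (Fin n) ℂ) : Matrix (Fin n) (Fin n) ℂ := Aᴴ * A

/-- Cubic trace. -/
def cubeTr (A : Matrix (Fin m) (Fin n) ℂ) : ℝ := (trace (Rmat A * Rmat A * Rmat A)).re

/-- Square trace. -/
def sqTr (A : Matrix (Fin m) (Fin n) ℂ) : ℝ := (trace (Rmat A * Rmat A)).re

/-- Frobenius square. -/
def frobSq (A : Matrix (Fin m) (Fin n) ℂ) : ℝ := (trace (Aᴴ * A)).re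

theorem cubeTr_nonneg (A : Matrix (Fin m) (Fin n) ℂ) : 0 ≤ cubeTr A := by
  have h := (posSemidef_conjTranspose_mul_self A).pow 3
  rw [pow_three'] at h
  exact (Complex.nonneg_iff.1 h.trace_nonneg).1

theorem sqTr_nonneg (A : Matrix (Fin m) (Fin n) ℂ) : 0 ≤ sqTr A := by
  have h := (posSemidef_conjTranspose_mul_self A).pow 2
  rw [sq] at h
  exact (Complex.nonneg_iff.1 h.trace_nonneg).1

theorem kinetic_interval {A A' : ℝ → Matrix (Fin m) (Fin n) ℂ}
    (hAd : ∀ i j x, HasDerivAt (fun u => A u i j) (A' x i j) x)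
    (hA' : ∀ i j, Continuous fun u => A' u i j)
    {a b κ c ε : ℝ} (hab : a ≤ b) (hc : 0 ≤ c) (hε : 0 < ε) (hε2 : ε ≤ π / 2)
    (hcκ : c * κ ≤ π - 2 * ε)
    (hgram : ((κ : ℂ) • (1 : Matrix (Fin n) (Fin n) ℂ)
      - ∫ x in a..b, Rmat (A x)).PosSemidef) :
    c ^ 2 / 4 * (∫ x in a..b, cubeTr (A x))
      ≤ (∫ x in a..b, frobSq (A' x)) + c / 4 * ((sqTr (A a) + sqTr (A b)) / sin ε) := by
  have hA : ∀ i j, Continuous fun u => A u i j := fun i j =>
    continuous_iff_continuousAt.2 fun x => (hAd i j x).continuousAt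
  have hAc : Continuous A := continuous_matrix hA
  have hA'c : Continuous A' := continuous_matrix hA'
  have hRc : Continuous fun x => Rmat (A x) := by unfold Rmat; fun_prop
  set R := fun x => Rmat (A x) with hRdef
  set Q := fun t => ∫ x in a..t, R x with hQdef
  set X := fun t => (ε : ℂ) • (1 : Matrix (Fin n) (Fin n) ℂ) + (c : ℂ) • Q t with hXdef
  have hXd : ∀ t, HasDerivAt X ((c : ℂ) • R t) t := fun t =>
    ((hRc.integral_hasStrictDerivAt a t).hasDerivAt.fun_const_smul (c : ℂ)).const_add _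
  have hRd : ∀ t, HasDerivAt R ((A' t)ᴴ * A t + (A t)ᴴ * A' t) t := fun t => by
    refine hasDerivAt_matrix fun i j => ?_
    simp only [hRdef, Rmat, Matrix.mul_apply, Matrix.conjTranspose_apply, Matrix.add_apply,
      ← Finset.sum_add_distrib]
    exact HasDerivAt.fun_sum fun k _ => ((hAd k i t).star).fun_mul (hAd k j t)
  have hP : ∀ t ∈ Icc a b, ((X t) - (ε : ℂ) • (1 : Matrix (Fin n) (Fin n) ℂ)).PosSemidef ∧
      (((π - ε : ℝ) : ℂ) • (1 : Matrix (Fin n) (Fin n) ℂ) - X t).PosSemidef := by
    intro t ht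
    have hR0 : ∀ x, (R x).PosSemidef := fun x => posSemidef_conjTranspose_mul_self _
    have hc' : (0 : ℂ) ≤ (c : ℂ) := by exact_mod_cast hc
    constructor
    · have := (psd_integral hRc hR0 ht.1).smul hc'
      simpa [hXdef, hQdef] using this
    · have h3 : ((κ : ℂ) • (1 : Matrix (Fin n) (Fin n) ℂ) - Q t).PosSemidef := by
        have e : Q t + ∫ x in t..b, R x = ∫ x in a..b, R x :=
          intervalIntegral.integral_add_adjacent_intervals (hRc.intervalIntegrable _ _)
            (hRc.intervalIntegrable _ _)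
        have := hgram.add (psd_integral hRc hR0 ht.2)
        rw [← e] at this
        convert this using 1
        abel
      have h4 : (0 : ℂ) ≤ ((π - 2 * ε - c * κ : ℝ) : ℂ) := by
        exact_mod_cast (by linarith : (0:ℝ) ≤ π - 2 * ε - c * κ)
      have := (h3.smul hc').add ((PosSemidef.one (n := Fin n) (R := ℂ)).smul h4)
      convert this using 1
      simp only [hXdef, smul_sub, smul_smul]
      push_cast
      module
  have hc1 : Continuous fun x => cubeTr (A x) := by unfold cubeTr Rmat; fun_prop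
  have hc2 : Continuous fun x => frobSq (A' x) := by unfold frobSq; fun_prop
  set g := fun t => (∫ x in a..t, frobSq (A' x)) - c ^ 2 / 4 * (∫ x in a..t, cubeTr (A x))
    - c / 4 * Sfun (X t) (R t) with hg
  have hgd : ∀ t ∈ Icc a b, ∃ g', HasDerivAt g g' t ∧ 0 ≤ g' := by
    intro t ht
    obtain ⟨s', hs, hle⟩ := deriv_bound hc hε (hXd t) (hRd t) rfl (hP t ht).1 (hP t ht).2
    refine ⟨frobSq (A' t) - c ^ 2 / 4 * cubeTr (A t) - c / 4 * s', ?_, ?_⟩
    · exact (((hc2.integral_hasStrictDerivAt a t).hasDerivAt).sub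
        (((hc1.integral_hasStrictDerivAt a t).hasDerivAt).const_mul _)).sub (hs.const_mul _)
    · simp only [frobSq, cubeTr, hRdef, Rmat] at hle ⊢
      linarith
  have hmono : MonotoneOn g (Icc a b) := by
    refine monotoneOn_of_deriv_nonneg (convex_Icc _ _) ?_ ?_ ?_
    · exact fun t ht => (hgd t ht).choose_spec.1.continuousAt.continuousWithinAt
    · exact fun t ht => (hgd t (interior_subset ht)).choose_spec.1.differentiableAt.differentiableWithinAt
    · intro t ht
      obtain ⟨g', h, h0⟩ := hgd t (interior_subset ht)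
      rw [h.deriv]; exact h0
  have h := hmono (left_mem_Icc.2 hab) (right_mem_Icc.2 hab) hab
  simp only [hg, intervalIntegral.integral_same, mul_zero, sub_zero, zero_sub] at h
  have hb : ∀ t ∈ Icc a b, |Sfun (X t) (R t)| ≤ sqTr (A t) / sin ε := fun t ht =>
    Sfun_bound hε hε2 (hP t ht).1 (hP t ht).2 (posSemidef_conjTranspose_mul_self _).1
  have h1 := abs_le.1 (hb a (left_mem_Icc.2 hab))
  have h2 := abs_le.1 (hb b (right_mem_Icc.2 hab))
  rw [add_div]
  nlinarith [h1.1, h1.2, h2.1, h2.2]

end Vale.Agent.P371M
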