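import Vale.Agent.P371M.Defs
import Vale.Agent.P371M.Kinetic

namespace Vale.Agent.P371M

open Matrix Finset Real MeasureTheory Filter Topology Set
open scoped Matrix ComplexOrder

theorem IsH1.locInt {u du : ℝ → ℂ} (h : IsH1 u du) : LocallyIntegrable du :=
  h.2.1.locallyIntegrable one_le_two

theorem IsH1.intInt {u du : ℝ → ℂ} (h : IsH1 u du) (a b : ℝ) :
    IntervalIntegrable du volume a b :=
  (h.locInt.integrableOn_isCompact isCompact_uIcc).intervalIntegrable

theorem IsH1.continuous {u du : ℝ → ℂ} (h : IsH1 u du) : Continuous u := by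
  have e : u = fun x => u 0 + ∫ t in (0:ℝ)..x, du t := funext fun x => by
    rw [← h.2.2 0 x]; ring
  rw [e]
  exact continuous_const.add (intervalIntegral.continuous_primitive h.intInt 0)

theorem IsH1.sq_integrable {u du : ℝ → ℂ} (h : IsH1 u du) :
    Integrable fun x => ‖u x‖ ^ 2 :=
  (memLp_two_iff_integrable_sq_norm h.1.1).1 h.1

theorem IsH1.dsq_integrable {u du : ℝ → ℂ} (h : IsH1 u du) :
    Integrable fun x => ‖du x‖ ^ 2 :=
  (memLp_two_iff_integrable_sq_norm h.2.1.1).1 h.2.1

theorem IsH1.approx {u du : ℝ → ℂ} (h : IsH1 u du) {a b η : ℝ} (hab : a ≤ b) (hη : 0 < η) :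
    ∃ v g : ℝ → ℂ, Continuous g ∧ (∀ x, HasDerivAt v (g x) x) ∧
      (∀ x ∈ Icc a b, ‖v x - u x‖ ≤ η * (b - a + 1)) ∧
      (∫ x in a..b, ‖g x - du x‖) ≤ η * (b - a + 1) ∧
      (∫ x in a..b, ‖g x‖ ^ 2) ≤ (1 + η) * (∫ x in a..b, ‖du x‖ ^ 2) + η * (η + 1) := by
  have h2 : MemLp du (ENNReal.ofReal 2) volume := by
    rw [ENNReal.ofReal_ofNat]; exact h.2.1
  obtain ⟨g, -, hg, hgc, hgm⟩ :=
    h2.exists_hasCompactSupport_integral_rpow_sub_le two_pos (pow_pos hη 2)
  rw [ENNReal.ofReal_ofNat] at hgm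
  have hd : Integrable fun x => ‖du x - g x‖ ^ 2 :=
    (memLp_two_iff_integrable_sq_norm (h.2.1.sub hgm).1).1 (h.2.1.sub hgm)
  have hg2 : (∫ x in a..b, ‖du x - g x‖ ^ 2) ≤ η ^ 2 := by
    rw [intervalIntegral.integral_of_le hab]
    refine le_trans (setIntegral_le_integral hd (Eventually.of_forall fun x => by positivity)) ?_
    simpa using hg
  have hL1 : (∫ x in a..b, ‖g x - du x‖) ≤ η * (b - a + 1) := by
    calc (∫ x in a..b, ‖g x - du x‖)
        ≤ ∫ x in a..b, (η + (1 / η) * ‖du x - g x‖ ^ 2) := by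
          refine intervalIntegral.integral_mono_on hab
            ((hgc.intervalIntegrable _ _).sub (h.intInt a b)).norm
            ((intervalIntegrable_const).add (hd.intervalIntegrable.const_mul _)) fun x _ => ?_
          rw [norm_sub_rev]
          have : 0 ≤ (1 / η) * (‖du x - g x‖ - η / 2) ^ 2 + 3 / 4 * η := by positivity
          have e : (1 / η) * (‖du x - g x‖ - η / 2) ^ 2 + 3 / 4 * η
              = η + 1 / η * ‖du x - g x‖ ^ 2 - ‖du x - g x‖ := by field_simp; ring
          linarith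
      _ = (b - a) * η + 1 / η * ∫ x in a..b, ‖du x - g x‖ ^ 2 := by
          rw [intervalIntegral.integral_add intervalIntegrable_const
            (hd.intervalIntegrable.const_mul _), intervalIntegral.integral_const,
            intervalIntegral.integral_const_mul, smul_eq_mul]
      _ ≤ (b - a) * η + 1 / η * η ^ 2 := by gcongr
      _ = η * (b - a + 1) := by field_simp
  refine ⟨fun x => u a + ∫ t in a..x, g t, g, hgc,
    fun x => ((hgc.integral_hasStrictDerivAt a x).hasDerivAt).const_add _, ?_, hL1, ?_⟩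
  · intro x hx
    have e : u a + (∫ t in a..x, g t) - u x = ∫ t in a..x, (g t - du t) := by
      rw [intervalIntegral.integral_sub (hgc.intervalIntegrable _ _) (h.intInt a x), ← h.2.2 a x]
      ring
    rw [e]
    refine le_trans (intervalIntegral.norm_integral_le_integral_norm hx.1) (le_trans ?_ hL1)
    exact intervalIntegral.integral_mono_interval le_rfl hx.1 hx.2
      (Eventually.of_forall fun t => norm_nonneg _)
      ((hgc.intervalIntegrable _ _).sub (h.intInt a b)).norm
  · have hdd := h.dsq_integrable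
    calc (∫ x in a..b, ‖g x‖ ^ 2)
        ≤ ∫ x in a..b, ((1 + η) * ‖du x‖ ^ 2 + (1 + 1 / η) * ‖du x - g x‖ ^ 2) := by
          refine intervalIntegral.integral_mono_on hab ((hgc.norm.pow 2).intervalIntegrable _ _)
            ((hdd.intervalIntegrable.const_mul _).add (hd.intervalIntegrable.const_mul _))
            fun x _ => ?_
          have h1 : ‖g x‖ ≤ ‖du x‖ + ‖du x - g x‖ := by
            have := norm_le_norm_add_norm_sub' (g x) (du x)
            rw [norm_sub_rev]; linarith [norm_sub_norm_le (g x) (du x)]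
          have h2 : (‖du x‖ + ‖du x - g x‖) ^ 2
              ≤ (1 + η) * ‖du x‖ ^ 2 + (1 + 1 / η) * ‖du x - g x‖ ^ 2 := by
            have : 0 ≤ (1 / η) * (η * ‖du x‖ - ‖du x - g x‖) ^ 2 := by positivity
            have e : (1 / η) * (η * ‖du x‖ - ‖du x - g x‖) ^ 2
                = η * ‖du x‖ ^ 2 + 1 / η * ‖du x - g x‖ ^ 2 - 2 * ‖du x‖ * ‖du x - g x‖ := by
              field_simp; ring
            nlinarith
          exact le_trans (pow_le_pow_left₀ (norm_nonneg _) h1 2) h2
      _ = (1 + η) * (∫ x in a..b, ‖du x‖ ^ 2)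
            + (1 + 1 / η) * (∫ x in a..b, ‖du x - g x‖ ^ 2) := by
          rw [intervalIntegral.integral_add (hdd.intervalIntegrable.const_mul _)
            (hd.intervalIntegrable.const_mul _), intervalIntegral.integral_const_mul,
            intervalIntegral.integral_const_mul]
      _ ≤ (1 + η) * (∫ x in a..b, ‖du x‖ ^ 2) + (1 + 1 / η) * η ^ 2 := by gcongr
      _ = _ := by field_simp

theorem exists_small_right {f : ℝ → ℝ} (hf : Integrable f) (k : ℝ) {δ : ℝ}
    (hδ : 0 < δ) : ∃ x, k < x ∧ f x < δ := by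
  by_contra h
  push Not at h
  have h1 : IntegrableOn (fun _ => δ) (Ioi k) volume := by
    refine Integrable.mono hf.integrableOn aestronglyMeasurable_const
      ((ae_restrict_mem measurableSet_Ioi).mono fun x hx => ?_)
    rw [Real.norm_of_nonneg hδ.le]
    exact le_trans (h x hx) (le_abs_self _)
  rw [integrableOn_const_iff] at h1
  simp [Real.volume_Ioi, hδ.ne'] at h1

theorem exists_small_left {f : ℝ → ℝ} (hf : Integrable f) (k : ℝ) {δ : ℝ}
    (hδ : 0 < δ) : ∃ x, x < k ∧ f x < δ := by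
  obtain ⟨x, h1, h2⟩ := exists_small_right hf.comp_neg (-k) hδ
  exact ⟨-x, by linarith, h2⟩

variable {n m : ℕ}

theorem frobSq_eq (A : Matrix (Fin m) (Fin n) ℂ) : frobSq A = ∑ i, ∑ a, ‖A a i‖ ^ 2 := by
  simp only [frobSq, Matrix.trace, Matrix.diag_apply, Matrix.mul_apply, Matrix.conjTranspose_apply,
    Complex.re_sum]
  refine Finset.sum_congr rfl fun i _ => Finset.sum_congr rfl fun a _ => ?_
  rw [RCLike.star_def, Complex.conj_mul', ← Complex.ofReal_pow, Complex.ofReal_re]

theorem sqTr_le (A : Matrix (Fin m) (Fin n) ℂ) : sqTr A ≤ frobSq A ^ 2 := by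
  have hH : (Rmat A).IsHermitian := (posSemidef_conjTranspose_mul_self A).1
  have e : sqTr A = ∑ i, ∑ j, ‖Rmat A i j‖ ^ 2 := by
    simp only [sqTr, Matrix.trace, Matrix.diag_apply, Matrix.mul_apply, Complex.re_sum]
    refine Finset.sum_congr rfl fun i _ => Finset.sum_congr rfl fun j _ => ?_
    rw [← hH.apply j i, RCLike.star_def, Complex.mul_conj', ← Complex.ofReal_pow,
      Complex.ofReal_re]
  rw [e, frobSq_eq, sq (∑ i, ∑ a, ‖A a i‖ ^ 2), Finset.sum_mul_sum]
  refine Finset.sum_le_sum fun i _ => Finset.sum_le_sum fun j _ => ?_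
  simp only [Rmat, Matrix.mul_apply, Matrix.conjTranspose_apply]
  calc ‖∑ a, star (A a i) * A a j‖ ^ 2 ≤ (∑ a, ‖A a i‖ * ‖A a j‖) ^ 2 := by
        gcongr
        exact (norm_sum_le _ _).trans_eq (Finset.sum_congr rfl fun a _ => by
          rw [norm_mul, norm_star])
    _ ≤ (∑ a, ‖A a i‖ ^ 2) * (∑ a, ‖A a j‖ ^ 2) := Finset.sum_mul_sq_le_sq_mul_sq _ _ _

section Interval

open scoped Matrix.Norms.Operator

noncomputable local instance : NormedAlgebra ℝ (Matrix (Fin n) (Fin n) ℂ) :=
  Matrix.linftyOpNormedAlgebra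

theorem gram_entry {A : ℝ → Matrix (Fin m) (Fin n) ℂ} (hA : ∀ i j, Continuous fun x => A x i j)
    (a b : ℝ) (i j : Fin n) :
    (∫ x in a..b, Rmat (A x)) i j = ∫ x in a..b, Rmat (A x) i j := by
  have hc : Continuous fun x => Rmat (A x) := by
    have := continuous_matrix hA
    unfold Rmat; fun_prop
  exact (entryL_apply i j _).symm.trans
    ((entryL i j).intervalIntegral_comp_comm (hc.intervalIntegrable _ _)).symm

theorem kinetic_interval' {A A' : ℝ → Matrix (Fin m) (Fin n) ℂ}
    (hAd : ∀ i j x, HasDerivAt (fun u => A u i j) (A' x i j) x)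
    (hA' : ∀ i j, Continuous fun u => A' u i j)
    {a b κ c ε : ℝ} (hab : a ≤ b) (hc : 0 ≤ c) (hε : 0 < ε) (hε2 : ε ≤ π / 2)
    (hcκ : c * κ ≤ π - 2 * ε)
    (hgram : ((κ : ℂ) • (1 : Matrix (Fin n) (Fin n) ℂ)
      - Matrix.of fun i j => ∫ x in a..b, Rmat (A x) i j).PosSemidef) :
    c ^ 2 / 4 * (∫ x in a..b, cubeTr (A x))
      ≤ (∫ x in a..b, frobSq (A' x)) + c / 4 * ((sqTr (A a) + sqTr (A b)) / sin ε) := by
  refine kinetic_interval hAd hA' hab hc hε hε2 hcκ ?_
  convert hgram using 3
  ext i j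
  exact gram_entry (fun i j => continuous_iff_continuousAt.2 fun x => (hAd i j x).continuousAt)
    a b i j

end Interval

theorem posSemidef_smul_one_sub {D : Matrix (Fin n) (Fin n) ℂ} (hD : D.IsHermitian) {δ : ℝ}
    (h : ∑ i, ∑ j, ‖D i j‖ ≤ δ) :
    ((δ : ℂ) • (1 : Matrix (Fin n) (Fin n) ℂ) - D).PosSemidef := by
  have hH : ((δ : ℂ) • (1 : Matrix (Fin n) (Fin n) ℂ) - D).IsHermitian := by
    refine IsHermitian.sub ?_ hD
    ext i j
    by_cases hij : i = j
    · subst hij; simp
    · simp [hij, Ne.symm hij]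
  refine PosSemidef.of_dotProduct_mulVec_nonneg hH fun v => ?_
  rw [Complex.nonneg_iff]
  refine ⟨?_, (hH.im_star_dotProduct_mulVec_self v).symm⟩
  rw [Matrix.sub_mulVec, dotProduct_sub, Matrix.smul_mulVec, Matrix.one_mulVec, dotProduct_smul,
    smul_eq_mul, Complex.sub_re, Complex.re_ofReal_mul]
  set S := (star v ⬝ᵥ v).re with hS
  have hSe : S = ∑ i, ‖v i‖ ^ 2 := by
    simp only [hS, dotProduct, Complex.re_sum, Pi.star_apply]
    refine Finset.sum_congr rfl fun i _ => ?_
    rw [RCLike.star_def, Complex.conj_mul', ← Complex.ofReal_pow, Complex.ofReal_re]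
  have hS0 : 0 ≤ S := by rw [hSe]; positivity
  have h2 : (star v ⬝ᵥ (D *ᵥ v)).re ≤ (∑ i, ∑ j, ‖D i j‖) * S := by
    simp only [dotProduct, mulVec, Finset.mul_sum, Complex.re_sum, Finset.sum_mul, Pi.star_apply]
    refine Finset.sum_le_sum fun i _ => Finset.sum_le_sum fun j _ => ?_
    refine le_trans (Complex.re_le_norm _) ?_
    rw [norm_mul, norm_mul, norm_star]
    have hi : ‖v i‖ ^ 2 ≤ S := by
      rw [hSe]
      exact Finset.single_le_sum (f := fun k => ‖v k‖ ^ 2) (fun k _ => by positivity)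
        (Finset.mem_univ i)
    have hj : ‖v j‖ ^ 2 ≤ S := by
      rw [hSe]
      exact Finset.single_le_sum (f := fun k => ‖v k‖ ^ 2) (fun k _ => by positivity)
        (Finset.mem_univ j)
    have : ‖v i‖ * ‖v j‖ ≤ S := by nlinarith [sq_nonneg (‖v i‖ - ‖v j‖)]
    nlinarith [mul_le_mul_of_nonneg_left this (norm_nonneg (D i j))]
  have := mul_le_mul_of_nonneg_right h hS0
  linarith

theorem continuous_comp_matrix {F : Matrix (Fin m) (Fin n) ℂ → ℝ} (hF : Continuous F)
    {A : ℝ → Matrix (Fin m) (Fin n) ℂ} (hA : ∀ i j, Continuous fun x => A x i j) :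
    Continuous fun x => F (A x) := hF.comp (continuous_matrix hA)

theorem cubeTr_continuous : Continuous (cubeTr (n := n) (m := m)) := by
  unfold cubeTr Rmat; fun_prop

theorem sqTr_continuous : Continuous (sqTr (n := n) (m := m)) := by
  unfold sqTr Rmat; fun_prop

theorem kinetic_H1_interval {u du : ℝ → Matrix (Fin m) (Fin n) ℂ}
    (h : ∀ a i, IsH1 (fun x => u x a i) (fun x => du x a i))
    (hgram : ∀ a b : ℝ, a ≤ b → ((1 : Matrix (Fin n) (Fin n) ℂ)
      - Matrix.of fun i j => ∫ x in a..b, Rmat (u x) i j).PosSemidef)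
    {a b c : ℝ} (hab : a ≤ b) (hc : 0 < c) (hcπ : c < π) :
    c ^ 2 / 4 * (∫ x in a..b, cubeTr (u x))
      ≤ (∫ x in a..b, frobSq (du x))
        + c / 4 * ((sqTr (u a) + sqTr (u b)) / sin ((π - c) / 4)) := by
  set ε := (π - c) / 4 with hεd
  set κ := (π - 2 * ε) / c with hκd
  have hκ : 1 < κ := by rw [hκd, lt_div_iff₀ hc, hεd]; linarith
  set η : ℕ → ℝ := fun k => 1 / ((k : ℝ) + 1) with hη
  have hηp : ∀ k, 0 < η k := fun k => by simp only [hη]; positivity
  have hη1 : ∀ k, η k ≤ 1 := fun k => by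
    simp only [hη]; rw [div_le_one (by positivity)]; linarith [(Nat.cast_nonneg k : (0:ℝ) ≤ k)]
  have hη0 : Tendsto η atTop (𝓝 0) := tendsto_one_div_add_atTop_nhds_zero_nat
  choose V G hGc hVd hVu _ hG2 using fun k p i => (h p i).approx hab (hηp k)
  set A : ℕ → ℝ → Matrix (Fin m) (Fin n) ℂ := fun k x => Matrix.of fun p i => V k p i x with hA
  set A' : ℕ → ℝ → Matrix (Fin m) (Fin n) ℂ := fun k x => Matrix.of fun p i => G k p i x with hA'
  have hAc : ∀ k p i, Continuous fun x => A k x p i := fun k p i =>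
    continuous_iff_continuousAt.2 fun x => (hVd k p i x).continuousAt
  have huc : ∀ p i, Continuous fun x => u x p i := fun p i => (h p i).continuous
  have hconv : ∀ x ∈ Icc a b, ∀ p i, Tendsto (fun k => A k x p i) atTop (𝓝 (u x p i)) := by
    intro x hx p i
    refine tendsto_iff_norm_sub_tendsto_zero.2 (squeeze_zero (fun k => norm_nonneg _)
      (fun k => hVu k p i x hx) ?_)
    simpa using hη0.mul_const (b - a + 1)
  obtain ⟨B, hB⟩ : ∃ B, ∀ x ∈ Icc a b, ∀ p i, ‖u x p i‖ ≤ B := by
    have : ∀ p i, ∃ B, 0 ≤ B ∧ ∀ x ∈ Icc a b, ‖u x p i‖ ≤ B := fun p i => by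
      obtain ⟨B, hB⟩ := (isCompact_Icc (a := a) (b := b)).exists_bound_of_continuousOn
        (huc p i).continuousOn
      exact ⟨max B 0, le_max_right _ _, fun x hx => le_trans (hB x hx) (le_max_left _ _)⟩
    choose B hB0 hB using this
    exact ⟨∑ p, ∑ i, B p i, fun x hx p i => le_trans (hB p i x hx)
      (le_trans (Finset.single_le_sum (f := fun j => B p j) (fun j _ => hB0 p j)
        (Finset.mem_univ i))
        (Finset.single_le_sum (f := fun q => ∑ j, B q j)
          (fun q _ => Finset.sum_nonneg fun j _ => hB0 q j) (Finset.mem_univ p)))⟩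
  set B' := B + (b - a + 1)
  have hAB : ∀ k, ∀ x ∈ Icc a b, ∀ p i, ‖A k x p i‖ ≤ B' := fun k x hx p i => by
    have h1 := hVu k p i x hx
    have h2 : η k * (b - a + 1) ≤ b - a + 1 := mul_le_of_le_one_left (by linarith) (hη1 k)
    have h3 := norm_le_norm_add_norm_sub' (A k x p i) (u x p i)
    have h4 : ‖A k x p i - u x p i‖ ≤ η k * (b - a + 1) := h1
    have h5 := hB x hx p i
    linarith
  have hIoc : ∀ᵐ x ∂volume, x ∈ uIoc a b → x ∈ Icc a b := Eventually.of_forall fun x hx => by
    rw [uIoc_of_le hab] at hx; exact Ioc_subset_Icc_self hx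
  have hlimR : ∀ i j, Tendsto (fun k => ∫ x in a..b, Rmat (A k x) i j) atTop
      (𝓝 (∫ x in a..b, Rmat (u x) i j)) := by
    intro i j
    refine intervalIntegral.tendsto_integral_filter_of_dominated_convergence
      (fun _ => ∑ _p : Fin m, B' * B') (Eventually.of_forall fun k => ?_)
      (Eventually.of_forall fun k => ?_) intervalIntegrable_const ?_
    · have : Continuous fun x => Rmat (A k x) i j := by
        have := continuous_matrix (hAc k)
        unfold Rmat; fun_prop
      exact this.aestronglyMeasurable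
    · filter_upwards [hIoc] with x hx hxm
      simp only [Rmat, Matrix.mul_apply, Matrix.conjTranspose_apply]
      refine (norm_sum_le _ _).trans (Finset.sum_le_sum fun p _ => ?_)
      rw [norm_mul, norm_star]
      exact mul_le_mul (hAB k x (hx hxm) p i) (hAB k x (hx hxm) p j) (norm_nonneg _)
        (le_trans (norm_nonneg _) (hAB k x (hx hxm) p i))
    · filter_upwards [hIoc] with x hx hxm
      simp only [Rmat, Matrix.mul_apply, Matrix.conjTranspose_apply]
      exact tendsto_finsetSum _ fun p _ =>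
        ((hconv x (hx hxm) p i).star).mul (hconv x (hx hxm) p j)
  have htoM : ∀ x ∈ Icc a b, Tendsto (fun k => A k x) atTop (𝓝 (u x)) := fun x hx =>
    tendsto_pi_nhds.2 fun p => tendsto_pi_nhds.2 fun i => hconv x hx p i
  obtain ⟨C, hC⟩ : ∃ C, ∀ k, ∀ x ∈ Icc a b, ‖cubeTr (A k x)‖ ≤ C := by
    set K : Set (Matrix (Fin m) (Fin n) ℂ) :=
      Set.pi univ fun _ => Set.pi univ fun _ => Metric.closedBall (0 : ℂ) B' with hK
    have hKc : IsCompact K :=
      isCompact_univ_pi fun _ => isCompact_univ_pi fun _ => isCompact_closedBall _ _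
    obtain ⟨C, hC⟩ := hKc.exists_bound_of_continuousOn cubeTr_continuous.continuousOn
    exact ⟨C, fun k x hx => hC _ fun p _ i _ => by
      simpa [Metric.mem_closedBall, dist_zero_right] using hAB k x hx p i⟩
  have hlimC : Tendsto (fun k => ∫ x in a..b, cubeTr (A k x)) atTop
      (𝓝 (∫ x in a..b, cubeTr (u x))) := by
    refine intervalIntegral.tendsto_integral_filter_of_dominated_convergence
      (fun _ => C) (Eventually.of_forall fun k =>
        (continuous_comp_matrix cubeTr_continuous (hAc k)).aestronglyMeasurable)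
      (Eventually.of_forall fun k => ?_) intervalIntegrable_const ?_
    · filter_upwards [hIoc] with x hx hxm
      exact hC k x (hx hxm)
    · filter_upwards [hIoc] with x hx hxm
      exact (cubeTr_continuous.tendsto _).comp (htoM x (hx hxm))
  have hev : ∀ᶠ k in atTop, ((κ : ℂ) • (1 : Matrix (Fin n) (Fin n) ℂ)
      - Matrix.of fun i j => ∫ x in a..b, Rmat (A k x) i j).PosSemidef := by
    set G0 := Matrix.of fun i j => ∫ x in a..b, Rmat (u x) i j with hG0
    have hz : Tendsto (fun k => ∑ i, ∑ j, ‖(∫ x in a..b, Rmat (A k x) i j) - G0 i j‖) atTop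
        (𝓝 0) := by
      have := tendsto_finsetSum (Finset.univ : Finset (Fin n)) fun i _ =>
        tendsto_finsetSum (Finset.univ : Finset (Fin n)) fun j _ =>
          ((hlimR i j).sub_const (G0 i j)).norm
      simpa [hG0] using this
    filter_upwards [hz.eventually (eventually_le_nhds (by linarith : (0:ℝ) < κ - 1))] with k hk
    have hH : ∀ w : ℝ → Matrix (Fin m) (Fin n) ℂ,
        (Matrix.of fun i j => ∫ x in a..b, Rmat (w x) i j).IsHermitian := by
      intro w
      ext i j
      simp only [Matrix.conjTranspose_apply, Matrix.of_apply, RCLike.star_def,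
        intervalIntegral.integral_of_le hab, ← integral_conj]
      exact integral_congr_ae (Eventually.of_forall fun x =>
        (posSemidef_conjTranspose_mul_self (w x)).1.apply i j)
    have h1 := posSemidef_smul_one_sub ((hH (A k)).sub (hH u)) (δ := κ - 1) (by simpa [hG0] using hk)
    have := (hgram a b hab).add h1
    convert this using 1
    push_cast
    module
  have hI2 : ∀ p i, IntervalIntegrable (fun x => ‖du x p i‖ ^ 2) volume a b := fun p i =>
    (h p i).dsq_integrable.intervalIntegrable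
  have hdu : (∫ x in a..b, frobSq (du x)) = ∑ i, ∑ p, ∫ x in a..b, ‖du x p i‖ ^ 2 := by
    simp only [frobSq_eq]
    have hin : ∀ i, IntervalIntegrable (fun x => ∑ p, ‖du x p i‖ ^ 2) volume a b := fun i => by
      simpa only [Finset.sum_fn] using IntervalIntegrable.sum Finset.univ fun p _ => hI2 p i
    rw [intervalIntegral.integral_finsetSum fun i _ => hin i]
    exact Finset.sum_congr rfl fun i _ =>
      intervalIntegral.integral_finsetSum fun p _ => hI2 p i
  have hA2 : ∀ k, (∫ x in a..b, frobSq (A' k x))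
      ≤ (1 + η k) * (∫ x in a..b, frobSq (du x)) + (n * m : ℝ) * (η k * (η k + 1)) := by
    intro k
    have e : (fun x => frobSq (A' k x)) = fun x => ∑ i, ∑ p, ‖G k p i x‖ ^ 2 :=
      funext fun x => frobSq_eq _
    have hcG : ∀ i, Continuous fun x => ∑ p, ‖G k p i x‖ ^ 2 := fun i =>
      continuous_finsetSum _ fun p _ => (hGc k p i).norm.pow 2
    rw [e, intervalIntegral.integral_finsetSum fun i _ => (hcG i).intervalIntegrable _ _, hdu]
    calc ∑ i, ∫ x in a..b, ∑ p, ‖G k p i x‖ ^ 2
        = ∑ i, ∑ p, ∫ x in a..b, ‖G k p i x‖ ^ 2 := Finset.sum_congr rfl fun i _ =>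
          intervalIntegral.integral_finsetSum fun p _ =>
            ((hGc k p i).norm.pow 2).intervalIntegrable _ _
      _ ≤ ∑ i, ∑ p, ((1 + η k) * (∫ x in a..b, ‖du x p i‖ ^ 2) + η k * (η k + 1)) :=
          Finset.sum_le_sum fun i _ => Finset.sum_le_sum fun p _ => hG2 k p i
      _ = _ := by
          simp only [Finset.sum_add_distrib, Finset.sum_const, Finset.card_univ, Fintype.card_fin,
            nsmul_eq_mul, ← Finset.mul_sum]
          ring
  have hab' : a ∈ Icc a b ∧ b ∈ Icc a b := ⟨left_mem_Icc.2 hab, right_mem_Icc.2 hab⟩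
  refine le_of_tendsto_of_tendsto (hlimC.const_mul (c ^ 2 / 4))
    (g := fun k => (1 + η k) * (∫ x in a..b, frobSq (du x)) + (n * m : ℝ) * (η k * (η k + 1))
      + c / 4 * ((sqTr (A k a) + sqTr (A k b)) / sin ε)) ?_ ?_
  · have t1 := (hη0.const_add 1).mul_const (∫ x in a..b, frobSq (du x))
    have t2 := (hη0.mul (hη0.add_const 1)).const_mul (n * m : ℝ)
    have t3 := (((((sqTr_continuous.tendsto _).comp (htoM a hab'.1)).add
      ((sqTr_continuous.tendsto _).comp (htoM b hab'.2))).div_const (sin ε))).const_mul (c / 4)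
    simpa using (t1.add t2).add t3
  · filter_upwards [hev] with k hk
    have hεp : 0 < ε := by rw [hεd]; linarith
    have hcκ : c * κ ≤ π - 2 * ε := by rw [hκd]; field_simp; rfl
    have := kinetic_interval' (A := A k) (A' := A' k) (fun p i x => hVd k p i x)
      (fun p i => hGc k p i) hab hc.le hεp (by rw [hεd]; linarith) hcκ hk
    linarith [hA2 k]

theorem kinetic_global {u du : ℝ → Matrix (Fin m) (Fin n) ℂ}
    (h : ∀ a i, IsH1 (fun x => u x a i) (fun x => du x a i))
    (hgram : ∀ a b : ℝ, a ≤ b → ((1 : Matrix (Fin n) (Fin n) ℂ)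
      - Matrix.of fun i j => ∫ x in a..b, Rmat (u x) i j).PosSemidef) :
    Integrable (fun x => cubeTr (u x)) ∧
      π ^ 2 / 4 * (∫ x, cubeTr (u x)) ≤ ∫ x, frobSq (du x) := by
  have hF : Integrable fun x => frobSq (u x) := by
    simp only [frobSq_eq]
    exact integrable_finsetSum _ fun i _ => integrable_finsetSum _ fun p _ =>
      (h p i).sq_integrable
  have hD : Integrable fun x => frobSq (du x) := by
    simp only [frobSq_eq]
    exact integrable_finsetSum _ fun i _ => integrable_finsetSum _ fun p _ =>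
      (h p i).dsq_integrable
  have hF0 : ∀ A : Matrix (Fin m) (Fin n) ℂ, 0 ≤ frobSq A := fun A => by
    rw [frobSq_eq]; positivity
  have hu : Continuous fun x => cubeTr (u x) :=
    continuous_comp_matrix cubeTr_continuous fun p i => (h p i).continuous
  choose bb hb1 hb2 using fun k : ℕ =>
    exists_small_right hF (k : ℝ) (δ := 1 / ((k : ℝ) + 1)) (by positivity)
  choose aa ha1 ha2 using fun k : ℕ =>
    exists_small_left hF (-(k : ℝ)) (δ := 1 / ((k : ℝ) + 1)) (by positivity)
  have hta : Tendsto aa atTop atBot :=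
    tendsto_atBot_mono (fun k => (ha1 k).le) (tendsto_neg_atTop_atBot.comp tendsto_natCast_atTop_atTop)
  have htb : Tendsto bb atTop atTop :=
    tendsto_atTop_mono (fun k => (hb1 k).le) tendsto_natCast_atTop_atTop
  have hbound : ∀ c, 0 < c → c < π → ∀ k : ℕ, c ^ 2 / 4 * (∫ x in aa k..bb k, cubeTr (u x))
      ≤ (∫ x, frobSq (du x)) + c / 4 * (2 * (1 / ((k : ℝ) + 1)) ^ 2 / sin ((π - c) / 4)) := by
    intro c hc hcπ k
    have hle : aa k ≤ bb k := by linarith [ha1 k, hb1 k, (Nat.cast_nonneg k : (0:ℝ) ≤ k)]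
    have h1 := kinetic_H1_interval h hgram hle hc hcπ
    have h2 : (∫ x in aa k..bb k, frobSq (du x)) ≤ ∫ x, frobSq (du x) := by
      rw [intervalIntegral.integral_of_le hle]
      exact setIntegral_le_integral hD (Eventually.of_forall fun x => hF0 _)
    have hs : 0 < sin ((π - c) / 4) :=
      sin_pos_of_pos_of_lt_pi (by linarith) (by linarith [pi_pos])
    have h3 : (sqTr (u (aa k)) + sqTr (u (bb k))) / sin ((π - c) / 4)
        ≤ 2 * (1 / ((k : ℝ) + 1)) ^ 2 / sin ((π - c) / 4) := by
      gcongr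
      have e1 := (sqTr_le (u (aa k))).trans (pow_le_pow_left₀ (hF0 _) (ha2 k).le 2)
      have e2 := (sqTr_le (u (bb k))).trans (pow_le_pow_left₀ (hF0 _) (hb2 k).le 2)
      linarith
    have := mul_le_mul_of_nonneg_left h3 (by linarith : 0 ≤ c / 4)
    linarith
  have hint : Integrable fun x => cubeTr (u x) := by
    refine integrable_of_intervalIntegral_norm_bounded
      (((∫ x, frobSq (du x)) + 2 / 4 * (2 * 1 / sin ((π - 2) / 4))) / (2 ^ 2 / 4))
      (fun k => (hu.integrableOn_Ioc)) hta htb (Eventually.of_forall fun k => ?_)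
    simp only [Real.norm_of_nonneg (cubeTr_nonneg _)]
    rw [le_div_iff₀ (by norm_num)]
    have h1 := hbound 2 two_pos (by linarith [pi_gt_three]) k
    have hk : (1 / ((k : ℝ) + 1)) ^ 2 ≤ 1 := by
      refine pow_le_one₀ (by positivity) ?_
      rw [div_le_one (by positivity)]; linarith [(Nat.cast_nonneg k : (0:ℝ) ≤ k)]
    have hs : 0 < sin ((π - 2) / 4) :=
      sin_pos_of_pos_of_lt_pi (by linarith [pi_gt_three]) (by linarith [pi_gt_three])
    have h3 : 2 * (1 / ((k : ℝ) + 1)) ^ 2 / sin ((π - 2) / 4) ≤ 2 * 1 / sin ((π - 2) / 4) := by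
      gcongr
    linarith
  refine ⟨hint, ?_⟩
  have hlim := intervalIntegral_tendsto_integral hint hta htb
  have hc : ∀ c, 0 < c → c < π → c ^ 2 / 4 * (∫ x, cubeTr (u x)) ≤ ∫ x, frobSq (du x) := by
    intro c hc hcπ
    refine le_of_tendsto_of_tendsto' (hlim.const_mul (c ^ 2 / 4)) ?_ (hbound c hc hcπ)
    have := ((((tendsto_one_div_add_atTop_nhds_zero_nat (𝕜 := ℝ)).pow 2).const_mul 2).div_const
      (sin ((π - c) / 4))).const_mul (c / 4)
    simpa using this.const_add (∫ x, frobSq (du x))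
  have : Tendsto (fun c : ℝ => c ^ 2 / 4 * (∫ x, cubeTr (u x))) (𝓝[<] π)
      (𝓝 (π ^ 2 / 4 * (∫ x, cubeTr (u x)))) :=
    ((by fun_prop : Continuous fun c : ℝ => c ^ 2 / 4 * (∫ x, cubeTr (u x))).tendsto π).mono_left
      nhdsWithin_le_nhds
  refine le_of_tendsto this ?_
  filter_upwards [Ioo_mem_nhdsLT pi_pos] with c hc'
  exact hc c hc'.1 hc'.2

end Vale.Agent.P371M
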