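import Mathlib

namespace Vale.Agent.P371M

open Matrix Finset Filter Topology Real
open scoped Matrix

variable {ι : Type*} [Fintype ι]

theorem posSemidef_of_form {f : ι → ι → ℝ} (hs : ∀ i j, f i j = f j i)
    (h : ∀ v : ι → ℝ, 0 ≤ ∑ i, ∑ j, v i * f i j * v j) :
    (Matrix.of f).PosSemidef := by
  refine PosSemidef.of_dotProduct_mulVec_nonneg ?_ ?_
  · ext i j; simp [hs i j]
  · intro v
    simpa [dotProduct, mulVec, Finset.mul_sum, mul_assoc] using h v

theorem cauchy_form (p : ι → ℝ) (hp : ∀ i, 0 < p i) (s : Finset ι) :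
    ∀ v : ι → ℝ, 0 ≤ ∑ i ∈ s, ∑ j ∈ s, v i * (1 / (p i + p j)) * v j := by
  classical
  induction s using Finset.induction_on with
  | empty => simp
  | @insert k s hk ih =>
    intro v
    set a : ι → ℝ := fun i => (p i - p k) / (p i + p k) with ha
    set b : ι → ℝ := fun i => 1 / (p i + p k) with hb
    have key : ∀ i j, 1 / (p i + p j)
        = 2 * p k * (b i * b j) + a i * a j * (1 / (p i + p j)) := by
      intro i j
      have h1 := add_pos (hp i) (hp j)
      have h2 := add_pos (hp i) (hp k)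
      have h3 := add_pos (hp j) (hp k)
      simp only [ha, hb]
      field_simp
      ring
    have hk0 : a k * v k = 0 := by simp [ha]
    have e : ∑ i ∈ insert k s, ∑ j ∈ insert k s, v i * (1 / (p i + p j)) * v j
        = 2 * p k * (∑ i ∈ insert k s, v i * b i) ^ 2
          + ∑ i ∈ insert k s, ∑ j ∈ insert k s,
            (a i * v i) * (1 / (p i + p j)) * (a j * v j) := by
      rw [sq, Finset.sum_mul_sum, Finset.mul_sum, ← Finset.sum_add_distrib]
      refine Finset.sum_congr rfl fun i _ => ?_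
      rw [Finset.mul_sum, ← Finset.sum_add_distrib]
      refine Finset.sum_congr rfl fun j _ => ?_
      rw [key i j]
      rw [← key i j]
      linear_combination (v i * v j) * key i j
    rw [e]
    have e2 : ∑ i ∈ insert k s, ∑ j ∈ insert k s,
            (a i * v i) * (1 / (p i + p j)) * (a j * v j)
        = ∑ i ∈ s, ∑ j ∈ s, (a i * v i) * (1 / (p i + p j)) * (a j * v j) := by
      rw [Finset.sum_insert hk]
      simp [hk, hk0]
    rw [e2]
    have := ih (fun i => a i * v i)
    have := mul_nonneg (by linarith [hp k] : (0:ℝ) ≤ 2 * p k)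
      (sq_nonneg (∑ i ∈ insert k s, v i * b i))
    linarith

theorem cauchy_psd (p : ι → ℝ) (hp : ∀ i, 0 < p i) :
    (Matrix.of fun i j => 1 / (p i + p j)).PosSemidef :=
  posSemidef_of_form (fun i j => by rw [add_comm]) (fun v => cauchy_form p hp univ v)

theorem const_psd {c : ℝ} (hc : 0 ≤ c) :
    (Matrix.of fun (_ : ι) (_ : ι) => c).PosSemidef := by
  refine posSemidef_of_form (fun i j => rfl) fun v => ?_
  have : ∑ i, ∑ j, v i * c * v j = c * (∑ i, v i) ^ 2 := by
    rw [sq, Finset.sum_mul_sum, Finset.mul_sum]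
    simp [Finset.mul_sum, mul_assoc, mul_left_comm]
  rw [this]; positivity

theorem hadamardR {A B : Matrix ι ι ℝ} (hA : A.PosSemidef) (hB : B.PosSemidef) :
    (A ⊙ B).PosSemidef := hA.hadamard hB

theorem factor_psd {a : ℝ} (ha : π ≤ a) {μ : ℝ} (hμ : μ ^ 2 ≤ 1) (x : ι → ℝ)
    (hx : ∀ i, x i ∈ Set.Ioo 0 π) :
    (Matrix.of fun i j => (1 - (μ * ((x i + x j) / 2)) ^ 2 / a ^ 2) /
      (1 - ((x i + x j) / 2) ^ 2 / a ^ 2)).PosSemidef := by
  have h0 : 0 < a := lt_of_lt_of_le pi_pos ha
  have h1 := cauchy_psd (fun i => (a - x i) / 2) (fun i => by linarith [(hx i).2])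
  have h2 := cauchy_psd (fun i => (a + x i) / 2) (fun i => by linarith [(hx i).1])
  have hc : (0:ℝ) ≤ (1 - μ ^ 2) / 2 * a := by
    have : 0 ≤ 1 - μ ^ 2 := by linarith
    positivity
  have := (const_psd (ι := ι) (sq_nonneg μ)).add ((h1.add h2).smul hc)
  convert this using 1
  ext i j
  simp only [Matrix.of_apply, Matrix.add_apply, Matrix.smul_apply, smul_eq_mul]
  set σ := (x i + x j) / 2 with hσ
  have hσ0 : 0 < σ := by rw [hσ]; linarith [(hx i).1, (hx j).1]
  have hσ1 : σ < a := by rw [hσ]; linarith [(hx i).2, (hx j).2]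
  rw [show (a - x i) / 2 + (a - x j) / 2 = a - σ by rw [hσ]; ring,
    show (a + x i) / 2 + (a + x j) / 2 = a + σ by rw [hσ]; ring]
  have d1 : a - σ ≠ 0 := by linarith
  have d2 : a + σ ≠ 0 := by linarith
  have d3 : a ^ 2 - σ ^ 2 ≠ 0 := by
    rw [show a ^ 2 - σ ^ 2 = (a - σ) * (a + σ) by ring]; exact mul_ne_zero d1 d2
  field_simp
  ring

theorem sinRatio_psd {μ : ℝ} (hμ : μ ∈ Set.Icc 0 1) (x : ι → ℝ)
    (hx : ∀ i, x i ∈ Set.Ioo 0 π) :
    (Matrix.of fun i j => sin (μ * ((x i + x j) / 2)) / sin ((x i + x j) / 2)).PosSemidef := by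
  let F : ℕ → Matrix ι ι ℝ := fun n => Matrix.of fun i j =>
    μ * ∏ k ∈ Finset.range n,
      (1 - (μ * ((x i + x j) / 2)) ^ 2 / (π * ((k:ℝ) + 1)) ^ 2) /
        (1 - ((x i + x j) / 2) ^ 2 / (π * ((k:ℝ) + 1)) ^ 2)
  have hμ2 : μ ^ 2 ≤ 1 := by nlinarith [hμ.1, hμ.2]
  have hF : ∀ n, (F n).PosSemidef := by
    intro n
    induction n with
    | zero => simpa [F] using const_psd (ι := ι) hμ.1
    | succ n ih =>
      have hk : π ≤ π * ((n:ℝ) + 1) := by nlinarith [pi_pos, (Nat.cast_nonneg n : (0:ℝ) ≤ n)]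
      convert hadamardR ih (factor_psd hk hμ2 x hx) using 1
      ext i j
      simp only [F, Matrix.of_apply, Matrix.hadamard_apply, Finset.prod_range_succ]
      ring
  have hlim : ∀ i j, Tendsto (fun n => F n i j) atTop
      (𝓝 (sin (μ * ((x i + x j) / 2)) / sin ((x i + x j) / 2))) := by
    intro i j
    set σ := (x i + x j) / 2 with hσ
    have hσ0 : 0 < σ := by rw [hσ]; linarith [(hx i).1, (hx j).1]
    have hσ1 : σ < π := by rw [hσ]; linarith [(hx i).2, (hx j).2]
    have h1 := Real.tendsto_euler_sin_prod (μ * σ / π)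
    have h2 := Real.tendsto_euler_sin_prod (σ / π)
    rw [show π * (μ * σ / π) = μ * σ by field_simp] at h1
    rw [show π * (σ / π) = σ by field_simp] at h2
    refine (h1.div h2 (sin_pos_of_pos_of_lt_pi hσ0 hσ1).ne').congr fun n => ?_
    have e : ∀ t : ℝ, ∏ k ∈ Finset.range n, (1 - (t / π) ^ 2 / ((k:ℝ) + 1) ^ 2)
        = ∏ k ∈ Finset.range n, (1 - t ^ 2 / (π * ((k:ℝ) + 1)) ^ 2) :=
      fun t => Finset.prod_congr rfl fun k _ => by rw [div_pow, div_div, mul_pow]
    simp only [Pi.div_apply, e, F, Matrix.of_apply, Finset.prod_div_distrib]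
    rw [← hσ, mul_comm μ σ, mul_assoc, mul_div_mul_left _ _ hσ0.ne', mul_div_assoc]
  refine posSemidef_of_form (fun i j => by rw [add_comm (x i)]) fun v => ?_
  refine ge_of_tendsto' (b := 0) (f := fun n => ∑ i, ∑ j, v i * F n i j * v j)
    (tendsto_finsetSum _ fun i _ => tendsto_finsetSum _ fun j _ =>
      ((hlim i j).const_mul (v i)).mul_const (v j)) fun n => ?_
  have := (hF n).dotProduct_mulVec_nonneg v
  simpa [dotProduct, mulVec, Finset.mul_sum, mul_assoc] using this

theorem cosDiff_psd (c : ℝ) (x : ι → ℝ) :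
    (Matrix.of fun i j => cos (c * (x i - x j))).PosSemidef := by
  refine posSemidef_of_form (fun i j => by rw [← Real.cos_neg]; ring_nf) fun v => ?_
  have : ∑ i, ∑ j, v i * cos (c * (x i - x j)) * v j
      = (∑ i, v i * cos (c * x i)) ^ 2 + (∑ i, v i * sin (c * x i)) ^ 2 := by
    simp only [sq, Finset.sum_mul_sum, ← Finset.sum_add_distrib, mul_sub, cos_sub]
    refine Finset.sum_congr rfl fun i _ => Finset.sum_congr rfl fun j _ => ?_
    ring
  rw [this]; positivity

theorem weightKernel_psd {μ : ℝ} (hμ : μ ∈ Set.Icc 0 1) (x : ι → ℝ)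
    (hx : ∀ i, x i ∈ Set.Ioo 0 π) :
    (Matrix.of fun i j =>
      (sin (μ * x i) + sin (μ * x j)) / sin ((x i + x j) / 2)).PosSemidef := by
  have h := (hadamardR (cosDiff_psd (μ / 2) x) (sinRatio_psd hμ x hx)).smul (zero_le_two (α := ℝ))
  convert h using 1
  ext i j
  simp only [Matrix.smul_apply, Matrix.hadamard_apply, Matrix.of_apply, smul_eq_mul]
  rw [show μ * x i = μ * ((x i + x j) / 2) + μ / 2 * (x i - x j) by ring,
    show μ * x j = μ * ((x i + x j) / 2) - μ / 2 * (x i - x j) by ring, sin_add, sin_sub]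
  ring_nf

open scoped ComplexOrder in
theorem posSemidef_ofReal {A : Matrix ι ι ℝ} (hA : A.PosSemidef) :
    (Matrix.of fun i j => (A i j : ℂ)).PosSemidef := by
  have hs : ∀ i j, A i j = A j i := fun i j => by simpa using (hA.1.apply i j).symm
  refine PosSemidef.of_dotProduct_mulVec_nonneg ?_ ?_
  · ext i j; simp [hs i j]
  · intro v
    have hr := hA.dotProduct_mulVec_nonneg fun i => (v i).re
    have hi := hA.dotProduct_mulVec_nonneg fun i => (v i).im
    simp only [dotProduct, mulVec, Pi.star_apply, star_trivial, Finset.mul_sum] at hr hi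
    rw [Complex.nonneg_iff]
    simp only [dotProduct, mulVec, Pi.star_apply, Matrix.of_apply, Finset.mul_sum,
      Complex.re_sum, Complex.im_sum, Complex.mul_re, Complex.mul_im, Complex.ofReal_re,
      Complex.ofReal_im, RCLike.star_def, Complex.conj_re, Complex.conj_im, zero_mul, sub_zero,
      add_zero]
    constructor
    · have := add_nonneg hr hi
      simpa [← Finset.sum_add_distrib, sub_eq_add_neg] using this
    · simp only [Finset.sum_add_distrib, neg_mul, Finset.sum_neg_distrib]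
      rw [eq_comm, ← sub_eq_add_neg, sub_eq_zero, Finset.sum_comm]
      exact Finset.sum_congr rfl fun i _ => Finset.sum_congr rfl fun j _ => by
        rw [hs j i]; ring

end Vale.Agent.P371M
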