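import Vale.Agent.P371M.Upper

namespace Vale.Agent.P371M

open Matrix Finset Real MeasureTheory Filter Topology Set Polynomial
open scoped Matrix ComplexOrder ENNReal

variable {n m : ℕ}

/-- Trace of a function of a Hermitian matrix, via its eigenvalues. -/
noncomputable def trFun (f : ℝ → ℝ) (A : Matrix (Fin m) (Fin m) ℂ) : ℝ :=
  if h : A.IsHermitian then ∑ a, f (h.eigenvalues a) else 0

theorem trace_pow_eq {A : Matrix (Fin m) (Fin m) ℂ} (hA : A.IsHermitian) (k : ℕ) :
    (trace (A ^ k)).re = ∑ a, hA.eigenvalues a ^ k := by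
  set U : Matrix (Fin m) (Fin m) ℂ := (hA.eigenvectorUnitary : Matrix (Fin m) (Fin m) ℂ)
  have hU1 : U * Uᴴ = 1 := Unitary.coe_mul_star_self hA.eigenvectorUnitary
  have hU2 : Uᴴ * U = 1 := Unitary.coe_star_mul_self hA.eigenvectorUnitary
  set w := hA.eigenvalues
  have hd : A = U * Matrix.diagonal (fun i => (w i : ℂ)) * Uᴴ := by
    conv_lhs => rw [hA.spectral_theorem]
    rfl
  have e : A ^ k = U * Matrix.diagonal (fun i => (w i : ℂ) ^ k) * Uᴴ := by
    induction k with
    | zero => simp [hU1]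
    | succ k ih =>
      rw [pow_succ, ih]
      nth_rewrite 1 [hd]
      rw [show U * Matrix.diagonal (fun i => (w i : ℂ) ^ k) * Uᴴ
          * (U * Matrix.diagonal (fun i => (w i : ℂ)) * Uᴴ)
          = U * (Matrix.diagonal (fun i => (w i : ℂ) ^ k) * ((Uᴴ * U)
            * Matrix.diagonal (fun i => (w i : ℂ)))) * Uᴴ by simp only [Matrix.mul_assoc],
        hU2, Matrix.one_mul, Matrix.diagonal_mul_diagonal]
      congr 2
  rw [e, Matrix.trace_mul_comm, ← Matrix.mul_assoc, hU2, Matrix.one_mul, Matrix.trace,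
    Complex.re_sum]
  exact Finset.sum_congr rfl fun a _ => by
    rw [Matrix.diag_apply, Matrix.diagonal_apply_eq, ← Complex.ofReal_pow, Complex.ofReal_re]

theorem measurable_trFun {f : ℝ → ℝ} (hf : Continuous f)
    {W : ℝ → Matrix (Fin m) (Fin m) ℂ} (hW : ∀ x, (W x).IsHermitian)
    (hm : ∀ a b, Measurable fun x => W x a b) : Measurable fun x => trFun f (W x) := by
  choose p hp using fun k : ℕ => exists_polynomial_near_of_continuousOn (-(k : ℝ)) k f
    hf.continuousOn (1 / ((k : ℝ) + 1)) (by positivity)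
  have hpow : ∀ j : ℕ, ∀ a b, Measurable fun x => (W x ^ j) a b := by
    intro j
    induction j with
    | zero => intro a b; simp only [pow_zero]; exact measurable_const
    | succ j ih =>
      intro a b
      simp only [pow_succ, Matrix.mul_apply]
      exact Finset.measurable_fun_sum _ fun c _ => (ih a c).mul (hm c b)
  have hP : ∀ k, Measurable fun x => ∑ a, (p k).eval ((hW x).eigenvalues a) := by
    intro k
    have e : ∀ x, ∑ a, (p k).eval ((hW x).eigenvalues a)
        = ∑ j ∈ Finset.range ((p k).natDegree + 1), (p k).coeff j * (trace (W x ^ j)).re := by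
      intro x
      simp only [trace_pow_eq (hW x), Finset.mul_sum, Polynomial.eval_eq_sum_range]
      exact Finset.sum_comm
    simp only [e]
    refine Finset.measurable_fun_sum _ fun j _ => Measurable.const_mul ?_ _
    simp only [Matrix.trace, Matrix.diag_apply]
    exact Complex.measurable_re.comp (Finset.measurable_fun_sum _ fun a _ => hpow j a a)
  refine measurable_of_tendsto_metrizable hP (tendsto_pi_nhds.2 fun x => ?_)
  simp only [trFun, dif_pos (hW x)]
  refine tendsto_finsetSum _ fun a _ => ?_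
  refine tendsto_iff_norm_sub_tendsto_zero.2 (squeeze_zero' (Eventually.of_forall fun k => norm_nonneg _)
    ?_ (tendsto_one_div_add_atTop_nhds_zero_nat (𝕜 := ℝ)))
  filter_upwards [tendsto_natCast_atTop_atTop.eventually
    (eventually_ge_atTop |(hW x).eigenvalues a|)] with k hk
  exact (hp k _ (Set.mem_Icc.2 (abs_le.1 hk))).le

/-- The shifted excess `tr (W - t)_+^(3/2)`. -/
noncomputable def excess (t : ℝ) (A : Matrix (Fin m) (Fin m) ℂ) : ℝ :=
  trFun (fun w => (max (w - t) 0) ^ (3 / 2 : ℝ)) A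

theorem excess_nonneg (t : ℝ) (A : Matrix (Fin m) (Fin m) ℂ) : 0 ≤ excess t A := by
  unfold excess trFun
  split
  · exact Finset.sum_nonneg fun a _ => Real.rpow_nonneg (le_max_right _ _) _
  · exact le_rfl

theorem young_shift {W : Matrix (Fin m) (Fin m) ℂ} (hW : W.PosSemidef)
    (A : Matrix (Fin m) (Fin n) ℂ) (t : ℝ) :
    (trace (Aᴴ * W * A)).re - t * frobSq A ≤ L11 * excess t W + π ^ 2 / 4 * cubeTr A := by
  set U : Matrix (Fin m) (Fin m) ℂ := (hW.1.eigenvectorUnitary : Matrix (Fin m) (Fin m) ℂ)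
  have hU1 : U * Uᴴ = 1 := Unitary.coe_mul_star_self hW.1.eigenvectorUnitary
  set w := hW.1.eigenvalues with hw
  have hd : W = U * Matrix.diagonal (fun i => (w i : ℂ)) * Uᴴ := by
    conv_lhs => rw [hW.1.spectral_theorem]
    rfl
  set B := Uᴴ * A with hB
  set ρ := B * Bᴴ with hρ
  have hBB : Bᴴ * B = Rmat A := by
    rw [hB, Rmat, Matrix.conjTranspose_mul, Matrix.conjTranspose_conjTranspose, Matrix.mul_assoc,
      ← Matrix.mul_assoc U, hU1, Matrix.one_mul]
  have e1 : (trace (Aᴴ * W * A)).re = ∑ a, w a * (ρ a a).re := by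
    rw [hd, show Aᴴ * (U * Matrix.diagonal (fun i => (w i : ℂ)) * Uᴴ) * A
      = Bᴴ * (Matrix.diagonal (fun i => (w i : ℂ)) * B) by
      rw [hB, Matrix.conjTranspose_mul, Matrix.conjTranspose_conjTranspose]
      simp only [Matrix.mul_assoc], Matrix.trace_mul_comm, Matrix.mul_assoc, ← hρ, Matrix.trace,
      Complex.re_sum]
    exact Finset.sum_congr rfl fun a _ => by
      rw [Matrix.diag_apply, Matrix.diagonal_mul, Complex.re_ofReal_mul]
  have e0 : frobSq A = ∑ a, (ρ a a).re := by
    rw [frobSq, show Aᴴ * A = Rmat A from rfl, ← hBB, Matrix.trace_mul_comm, ← hρ, Matrix.trace,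
      Complex.re_sum]
    rfl
  have e2 : cubeTr A = ∑ a, ((ρ * ρ * ρ) a a).re := by
    rw [cubeTr, ← hBB, show Bᴴ * B * (Bᴴ * B) * (Bᴴ * B) = Bᴴ * (ρ * ρ * B) by
      simp only [hρ, Matrix.mul_assoc], Matrix.trace_mul_comm,
      show ρ * ρ * B * Bᴴ = ρ * ρ * ρ by simp only [hρ, Matrix.mul_assoc], Matrix.trace,
      Complex.re_sum]
    rfl
  have e3 : excess t W = ∑ a, (max (w a - t) 0) ^ (3 / 2 : ℝ) := by
    rw [excess, trFun, dif_pos hW.1]
  rw [e1, e0, e2, e3, Finset.mul_sum, Finset.mul_sum, Finset.mul_sum, ← Finset.sum_sub_distrib,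
    ← Finset.sum_add_distrib]
  refine Finset.sum_le_sum fun a _ => ?_
  have hρp : ρ.PosSemidef := posSemidef_self_mul_conjTranspose B
  have hr : 0 ≤ (ρ a a).re := (Complex.nonneg_iff.1 (hρp.diag_nonneg (i := a))).1
  have h1 := young_scalar (le_max_right (w a - t) 0) hr
  have h2 := diag_cube hρp a
  have h3 := mul_le_mul_of_nonneg_left h2 (by positivity : (0:ℝ) ≤ π ^ 2 / 4)
  have h4 := mul_le_mul_of_nonneg_right (le_max_left (w a - t) 0) hr
  linarith

theorem excess_le {t p : ℝ} (ht : 0 < t) (hp : 3 / 2 ≤ p) {A : Matrix (Fin m) (Fin m) ℂ}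
    (hA : A.PosSemidef) : excess t A ≤ trPow p A / t ^ (p - 3 / 2) := by
  rw [excess, trFun, dif_pos hA.1, trPow, dif_pos hA.1, Finset.sum_div]
  refine Finset.sum_le_sum fun a _ => ?_
  set w := hA.1.eigenvalues a
  have hw : 0 ≤ w := hA.eigenvalues_nonneg a
  rcases le_total w t with h | h
  · rw [max_eq_right (by linarith), Real.zero_rpow (by norm_num)]
    exact div_nonneg (Real.rpow_nonneg hw _) (Real.rpow_nonneg ht.le _)
  · rw [max_eq_left (by linarith), le_div_iff₀ (Real.rpow_pos_of_pos ht _)]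
    have hwp : 0 < w := lt_of_lt_of_le ht h
    have e : w ^ p = w ^ (3 / 2 : ℝ) * w ^ (p - 3 / 2) := by
      rw [← Real.rpow_add hwp]; ring_nf
    rw [e]
    exact mul_le_mul (Real.rpow_le_rpow (by linarith) (by linarith) (by norm_num))
      (Real.rpow_le_rpow ht.le h (by linarith)) (Real.rpow_nonneg ht.le _) (Real.rpow_nonneg hw _)

variable {W : ℝ → Matrix (Fin m) (Fin m) ℂ} {γ : ℝ}

theorem excess_integrable (hW : IsPotential γ W) (hγ : 1 ≤ γ) {t : ℝ} (ht : 0 < t) :
    Integrable fun x => excess t (W x) := by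
  refine (hW.2.2.div_const (t ^ (γ + 1 / 2 - 3 / 2))).mono'
    (measurable_trFun ?_ (fun x => (hW.1 x).1) hW.2.1).aestronglyMeasurable
    (Eventually.of_forall fun x => ?_)
  · exact ((continuous_id.sub continuous_const).max continuous_const).rpow_const
      fun _ => Or.inr (by norm_num)
  · rw [Real.norm_of_nonneg (excess_nonneg _ _)]
    exact excess_le ht (by linarith) (hW.1 x)

theorem form_integrable (hW : IsPotential γ W) (hγ : 1 ≤ γ) {u du : Fin n → ℝ → Fin m → ℂ}
    (h : ∀ i a, IsH1 (fun x => u i x a) (fun x => du i x a))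
    (horth : ∀ i j, (∫ x, star (u i x) ⬝ᵥ u j x) = if i = j then (1 : ℂ) else 0) (i : Fin n) :
    Integrable fun x => star (u i x) ⬝ᵥ (W x *ᵥ u i x) := by
  set U : ℝ → Matrix (Fin m) (Fin n) ℂ := fun x => Matrix.of fun a i => u i x a with hU
  obtain ⟨hci, -⟩ := kinetic_global (u := U) (du := fun x => Matrix.of fun a i => du i x a)
    (fun a i => h i a) (gram_le h horth)
  have hF : Integrable fun x => frobSq (U x) := by
    simp only [frobSq_eq]
    exact integrable_finsetSum _ fun j _ => integrable_finsetSum _ fun a _ =>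
      (h j a).sq_integrable
  refine ((((excess_integrable hW hγ one_pos).const_mul L11).add
    (hci.const_mul (π ^ 2 / 4))).add hF).mono' ?_ (Eventually.of_forall fun x => ?_)
  · refine Measurable.aestronglyMeasurable ?_
    simp only [dotProduct, mulVec, Pi.star_apply]
    refine Finset.measurable_fun_sum _ fun a _ => ((h i a).continuous.star.measurable).mul
      (Finset.measurable_fun_sum _ fun b _ => (hW.2.1 a b).mul (h i b).continuous.measurable)
  · have hq0 : ∀ j, 0 ≤ star (u j x) ⬝ᵥ (W x *ᵥ u j x) := fun j =>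
      (hW.1 x).dotProduct_mulVec_nonneg _
    have h0 := Complex.nonneg_iff.1 (hq0 i)
    have e : ‖star (u i x) ⬝ᵥ (W x *ᵥ u i x)‖ = (star (u i x) ⬝ᵥ (W x *ᵥ u i x)).re := by
      rw [← Complex.abs_re_eq_norm.2 h0.2.symm, abs_of_nonneg h0.1]
    have hWe : (trace ((U x)ᴴ * W x * U x)).re
        = ∑ j, (star (u j x) ⬝ᵥ (W x *ᵥ u j x)).re := by
      simp only [Matrix.trace, Complex.re_sum, Matrix.diag_apply]
      refine Finset.sum_congr rfl fun j _ => ?_
      congr 1
      rw [Matrix.mul_assoc]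
      simp [hU, Matrix.mul_apply, dotProduct, mulVec, Finset.mul_sum]
    have h1 := young_shift (hW.1 x) (U x) 1
    rw [hWe] at h1
    have h2 : (star (u i x) ⬝ᵥ (W x *ᵥ u i x)).re ≤ ∑ j, (star (u j x) ⬝ᵥ (W x *ᵥ u j x)).re :=
      Finset.single_le_sum (f := fun j => (star (u j x) ⬝ᵥ (W x *ᵥ u j x)).re)
        (fun j _ => (Complex.nonneg_iff.1 (hq0 j)).1) (Finset.mem_univ i)
    simp only [Pi.add_apply]
    rw [e]
    linarith

theorem shifted_bound (hW : IsPotential γ W) (hγ : 1 ≤ γ) {u du : Fin n → ℝ → Fin m → ℂ}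
    {lam : Fin n → ℝ} (hE : IsEigFamily W u du lam) {t : ℝ} (ht : 0 < t) :
    ∑ i, (-lam i - t) ≤ L11 * ∫ x, excess t (W x) := by
  obtain ⟨h, horth, -, hweak⟩ := hE
  set U : ℝ → Matrix (Fin m) (Fin n) ℂ := fun x => Matrix.of fun a i => u i x a with hU
  set dU : ℝ → Matrix (Fin m) (Fin n) ℂ := fun x => Matrix.of fun a i => du i x a with hdU
  obtain ⟨hci, hkin⟩ := kinetic_global (u := U) (du := dU) (fun a i => h i a) (gram_le h horth)
  have hqi := form_integrable hW hγ h horth
  have hWe : ∀ x, (trace ((U x)ᴴ * W x * U x)).re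
      = ∑ i, (star (u i x) ⬝ᵥ (W x *ᵥ u i x)).re := fun x => by
    simp only [Matrix.trace, Complex.re_sum, Matrix.diag_apply]
    refine Finset.sum_congr rfl fun i _ => ?_
    congr 1
    rw [Matrix.mul_assoc]
    simp [hU, Matrix.mul_apply, dotProduct, mulVec, Finset.mul_sum]
  have hfU : ∀ x, frobSq (U x) = ∑ i, (star (u i x) ⬝ᵥ u i x).re := fun x => by
    simp only [frobSq, Matrix.trace, Complex.re_sum, Matrix.diag_apply]
    refine Finset.sum_congr rfl fun i _ => ?_
    simp [hU, Matrix.mul_apply, dotProduct]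
  have hfdU : ∀ x, frobSq (dU x) = ∑ i, (star (du i x) ⬝ᵥ du i x).re := fun x => by
    simp only [frobSq, Matrix.trace, Complex.re_sum, Matrix.diag_apply]
    refine Finset.sum_congr rfl fun i _ => ?_
    simp [hdU, Matrix.mul_apply, dotProduct]
  have hni : ∀ i, Integrable fun x => star (u i x) ⬝ᵥ u i x := fun i => by
    simp only [dotProduct, Pi.star_apply]
    exact integrable_finsetSum _ fun a _ => (h i a).mul_integrable (h i a)
  have hdi : ∀ i, Integrable fun x => star (du i x) ⬝ᵥ du i x := fun i => by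
    simp only [dotProduct, Pi.star_apply, RCLike.star_def, Complex.conj_mul']
    refine integrable_finsetSum _ fun a _ => ?_
    exact ((h i a).dsq_integrable.ofReal (𝕜 := ℂ)).congr
      (Eventually.of_forall fun x => Complex.ofReal_pow _ _)
  have e1 : ∑ i, (∫ x, star (u i x) ⬝ᵥ (W x *ᵥ u i x)).re
      = ∫ x, (trace ((U x)ᴴ * W x * U x)).re := by
    simp only [hWe]
    exact ((integral_finsetSum _ fun i _ => (hqi i).re).trans
      (Finset.sum_congr rfl fun i _ => integral_re (hqi i))).symm
  have e2 : ∑ i, (∫ x, star (du i x) ⬝ᵥ du i x).re = ∫ x, frobSq (dU x) := by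
    simp only [hfdU]
    exact ((integral_finsetSum _ fun i _ => (hdi i).re).trans
      (Finset.sum_congr rfl fun i _ => integral_re (hdi i))).symm
  have e3 : (n : ℝ) = ∫ x, frobSq (U x) := by
    simp only [hfU]
    refine (((integral_finsetSum _ fun i _ => (hni i).re).trans
      (Finset.sum_congr rfl fun i _ => integral_re (hni i))).trans ?_).symm
    simp [horth]
  have hlam : ∀ i, -lam i = (∫ x, star (u i x) ⬝ᵥ (W x *ᵥ u i x)).re
      - (∫ x, star (du i x) ⬝ᵥ du i x).re := fun i => by
    have := hweak i (u i) (du i) (h i)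
    rw [horth i i, if_pos rfl, mul_one] at this
    have h2 := congrArg Complex.re this
    rw [Complex.sub_re, Complex.ofReal_re] at h2
    linarith
  have hA : Integrable fun x => (trace ((U x)ᴴ * W x * U x)).re := by
    simp only [hWe]
    exact integrable_finsetSum _ fun i _ => (hqi i).re
  have hB : Integrable fun x => frobSq (U x) := by
    simp only [hfU]
    exact integrable_finsetSum _ fun i _ => (hni i).re
  rw [Finset.sum_sub_distrib, Finset.sum_congr rfl fun i _ => hlam i, Finset.sum_sub_distrib,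
    e1, e2, Finset.sum_const, Finset.card_univ, Fintype.card_fin, nsmul_eq_mul, e3]
  have hx := excess_integrable hW hγ ht
  have h1 : (∫ x, ((trace ((U x)ᴴ * W x * U x)).re - t * frobSq (U x)))
      ≤ ∫ x, (L11 * excess t (W x) + π ^ 2 / 4 * cubeTr (U x)) :=
    integral_mono (hA.sub (hB.const_mul t)) ((hx.const_mul _).add (hci.const_mul _))
      fun x => young_shift (hW.1 x) (U x) t
  rw [integral_sub hA (hB.const_mul t), integral_add (hx.const_mul _) (hci.const_mul _),
    integral_const_mul, integral_const_mul, integral_const_mul] at h1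
  linarith

theorem beta_lintegral {a b w : ℝ} (ha : 0 < a) (hb : 1 < b) (hw : 0 ≤ w) :
    ∫⁻ t in Ioi (0:ℝ), ENNReal.ofReal (t ^ (a - 1) * (max (w - t) 0) ^ (b - 1))
      = ENNReal.ofReal (w ^ (a + b - 1) * ProbabilityTheory.beta a b) := by
  rcases hw.eq_or_lt with rfl | hw0
  · rw [Real.zero_rpow (by linarith), zero_mul, ENNReal.ofReal_zero]
    refine (setLIntegral_congr_fun measurableSet_Ioi fun t ht => ?_).trans lintegral_zero
    rw [max_eq_right (by linarith [mem_Ioi.1 ht]), Real.zero_rpow (by linarith), mul_zero,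
      ENNReal.ofReal_zero]
  set f := fun t : ℝ => t ^ (a - 1) * (max (w - t) 0) ^ (b - 1) with hf
  have hfi : IntervalIntegrable f volume 0 w :=
    (intervalIntegral.intervalIntegrable_rpow' (by linarith)).mul_continuousOn
      (((continuous_const.sub continuous_id).max continuous_const).rpow_const
        fun _ => Or.inr (by linarith)).continuousOn
  have hval : ∫ t in (0:ℝ)..w, f t = w ^ (a + b - 1) * ProbabilityTheory.beta a b := by
    have hc := Complex.betaIntegral_scaled (a : ℂ) (b : ℂ) hw0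
    have e : ∫ t in (0:ℝ)..w, ((f t : ℝ) : ℂ)
        = ∫ t in (0:ℝ)..w, (t : ℂ) ^ ((a : ℂ) - 1) * ((w : ℂ) - t) ^ ((b : ℂ) - 1) := by
      refine intervalIntegral.integral_congr fun t ht => ?_
      rw [uIcc_of_le hw0.le] at ht
      simp only [hf, max_eq_left (by linarith [ht.2] : (0:ℝ) ≤ w - t), Complex.ofReal_mul]
      rw [Complex.ofReal_cpow ht.1, Complex.ofReal_cpow (by linarith [ht.2])]
      push_cast; rfl
    rw [← e, intervalIntegral.integral_ofReal] at hc
    have hre := congrArg Complex.re hc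
    rw [Complex.ofReal_re, ← Complex.ofReal_add, ← Complex.ofReal_one, ← Complex.ofReal_sub,
      ← Complex.ofReal_cpow hw0.le, Complex.re_ofReal_mul,
      ← ProbabilityTheory.beta_eq_betaIntegralReal a b ha (by linarith)] at hre
    exact hre
  rw [← Set.Ioc_union_Ioi_eq_Ioi hw0.le,
    lintegral_union measurableSet_Ioi (Set.Ioc_disjoint_Ioi le_rfl)]
  have hz : ∫⁻ t in Ioi w, ENNReal.ofReal (f t) = 0 := by
    refine (setLIntegral_congr_fun measurableSet_Ioi fun t ht => ?_).trans lintegral_zero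
    simp only [hf]
    rw [max_eq_right (by linarith [mem_Ioi.1 ht]), Real.zero_rpow (by linarith), mul_zero,
      ENNReal.ofReal_zero]
  rw [hz, add_zero, ← hval, intervalIntegral.integral_of_le hw0.le,
    ofReal_integral_eq_lintegral_ofReal hfi.1]
  filter_upwards [ae_restrict_mem measurableSet_Ioc] with t ht
  exact mul_nonneg (Real.rpow_nonneg ht.1.le _) (Real.rpow_nonneg (le_max_right _ _) _)

theorem eig_bound_lifted (hW : IsPotential γ W) (hγ : 1 < γ) {u du : Fin n → ℝ → Fin m → ℂ}
    {lam : Fin n → ℝ} (hE : IsEigFamily W u du lam) :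
    ∑ i, |lam i| ^ γ ≤ Real.Gamma (γ + 1) / (Real.sqrt (3 * π) * Real.Gamma (γ + 3 / 2))
      * ∫ x, trPow (γ + 1 / 2) (W x) := by
  set B1 := ProbabilityTheory.beta (γ - 1) 2
  set B3 := ProbabilityTheory.beta (γ - 1) (5 / 2)
  have hB1 : 0 < B1 := ProbabilityTheory.beta_pos (by linarith) two_pos
  have hB3 : 0 < B3 := ProbabilityTheory.beta_pos (by linarith) (by norm_num)
  have hL : 0 ≤ L11 := by unfold L11; positivity
  have hsub : ∀ t, 0 < t → ∑ i, max (-lam i - t) 0 ≤ L11 * ∫ x, excess t (W x) := by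
    intro t ht
    set S := Finset.univ.filter fun i => t < -lam i with hS
    let e : Fin S.card → Fin n := fun k => (S.equivFin.symm k : Fin n)
    have hi : Function.Injective e := fun a b hab => by
      simpa [e] using hab
    have hE' : IsEigFamily W (fun k => u (e k)) (fun k => du (e k)) (fun k => lam (e k)) := by
      obtain ⟨h1, h2, h3, h4⟩ := hE
      refine ⟨fun k => h1 _, fun k l => ?_, fun k => h3 _, fun k => h4 _⟩
      rw [h2, if_congr hi.eq_iff rfl rfl]
    refine le_trans (le_of_eq ?_) (shifted_bound hW hγ.le hE' ht)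
    rw [← Finset.sum_subset (Finset.subset_univ S) fun i _ hi => by
      rw [max_eq_right]
      simp only [hS, Finset.mem_filter, Finset.mem_univ, true_and, not_lt] at hi
      linarith, ← Finset.sum_coe_sort S]
    refine Fintype.sum_equiv S.equivFin _ _ fun i => ?_
    simp only [e, Equiv.symm_apply_apply]
    have := (Finset.mem_filter.1 i.2).2
    rw [max_eq_left (by linarith)]
  have hexm : Measurable (Function.uncurry fun t x => excess t (W x)) := by
    refine measurable_uncurry_of_continuous_of_measurable (fun x => ?_) fun t =>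
      measurable_trFun (((continuous_id.sub continuous_const).max continuous_const).rpow_const
        fun _ => Or.inr (by norm_num)) (fun x => (hW.1 x).1) hW.2.1
    simp only [excess, trFun, dif_pos (hW.1 x).1]
    exact continuous_finsetSum _ fun a _ =>
      ((continuous_const.sub continuous_id).max continuous_const).rpow_const
        fun _ => Or.inr (by norm_num)
  have hl : ∀ i, ∫⁻ t in Ioi (0:ℝ), ENNReal.ofReal (t ^ (γ - 1 - 1) * max (-lam i - t) 0)
      = ENNReal.ofReal (|lam i| ^ γ * B1) := fun i => by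
    have := beta_lintegral (a := γ - 1) (b := 2) (w := -lam i) (by linarith) (by norm_num)
      (by linarith [hE.2.2.1 i])
    rw [show γ - 1 + 2 - 1 = γ by ring] at this
    rw [abs_of_neg (hE.2.2.1 i), ← this]
    norm_num
  have hr : ∀ x, ∫⁻ t in Ioi (0:ℝ), ENNReal.ofReal (t ^ (γ - 1 - 1) * excess t (W x))
      = ENNReal.ofReal (trPow (γ + 1 / 2) (W x) * B3) := fun x => by
    have hw := (hW.1 x).eigenvalues_nonneg
    simp only [excess, trFun, trPow, dif_pos (hW.1 x).1, Finset.mul_sum, Finset.sum_mul]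
    rw [ENNReal.ofReal_sum_of_nonneg fun a _ => mul_nonneg (Real.rpow_nonneg (hw a) _) hB3.le]
    rw [setLIntegral_congr_fun (g := fun t => ∑ a, ENNReal.ofReal (t ^ (γ - 1 - 1)
      * (max ((hW.1 x).1.eigenvalues a - t) 0) ^ (3 / 2 : ℝ))) measurableSet_Ioi fun t ht =>
      ENNReal.ofReal_sum_of_nonneg fun a _ => mul_nonneg (Real.rpow_nonneg (le_of_lt ht) _)
        (Real.rpow_nonneg (le_max_right _ _) _),
      lintegral_finsetSum _ fun a _ => by fun_prop]
    refine Finset.sum_congr rfl fun a _ => ?_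
    have := beta_lintegral (a := γ - 1) (b := 5 / 2) (w := (hW.1 x).1.eigenvalues a) (by linarith)
      (by norm_num) (hw a)
    rw [show γ - 1 + 5 / 2 - 1 = γ + 1 / 2 by ring, show (5:ℝ) / 2 - 1 = 3 / 2 by norm_num] at this
    exact this
  have hP0 : ∀ x, 0 ≤ trPow (γ + 1 / 2) (W x) := fun x => by
    rw [trPow, dif_pos (hW.1 x).1]
    exact Finset.sum_nonneg fun a _ => Real.rpow_nonneg ((hW.1 x).eigenvalues_nonneg a) _
  have key : ENNReal.ofReal ((∑ i, |lam i| ^ γ) * B1)
      ≤ ENNReal.ofReal (L11 * ((∫ x, trPow (γ + 1 / 2) (W x)) * B3)) := by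
    rw [Finset.sum_mul, ENNReal.ofReal_sum_of_nonneg fun i _ =>
      mul_nonneg (Real.rpow_nonneg (abs_nonneg _) _) hB1.le]
    simp only [← hl]
    rw [← lintegral_finsetSum _ fun i _ => by fun_prop]
    calc ∫⁻ t in Ioi (0:ℝ), ∑ i, ENNReal.ofReal (t ^ (γ - 1 - 1) * max (-lam i - t) 0)
        ≤ ∫⁻ t in Ioi (0:ℝ), ENNReal.ofReal L11 *
            ∫⁻ x, ENNReal.ofReal (t ^ (γ - 1 - 1) * excess t (W x)) := by
          refine setLIntegral_mono' measurableSet_Ioi fun t ht => ?_
          have hp : 0 ≤ t ^ (γ - 1 - 1) := Real.rpow_nonneg (le_of_lt ht) _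
          rw [← ENNReal.ofReal_sum_of_nonneg fun i _ => mul_nonneg hp (le_max_right _ _),
            ← Finset.mul_sum, ← ofReal_integral_eq_lintegral_ofReal
              ((excess_integrable hW hγ.le ht).const_mul _)
              (Eventually.of_forall fun x => mul_nonneg hp (excess_nonneg _ _)),
            ← ENNReal.ofReal_mul hL, integral_const_mul]
          refine ENNReal.ofReal_le_ofReal ?_
          rw [mul_left_comm]
          exact mul_le_mul_of_nonneg_left (hsub t ht) hp
      _ = ENNReal.ofReal L11 *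
            ∫⁻ x, ∫⁻ t in Ioi (0:ℝ), ENNReal.ofReal (t ^ (γ - 1 - 1) * excess t (W x)) := by
          rw [lintegral_const_mul' _ _ ENNReal.ofReal_ne_top, lintegral_lintegral_swap]
          exact (ENNReal.measurable_ofReal.comp
            ((measurable_fst.pow_const (γ - 1 - 1)).mul hexm)).aemeasurable
      _ = _ := by
          simp only [hr]
          rw [← ofReal_integral_eq_lintegral_ofReal (hW.2.2.mul_const _)
            (Eventually.of_forall fun x => mul_nonneg (hP0 x) hB3.le),
            ← ENNReal.ofReal_mul hL, integral_mul_const]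
  have hI : 0 ≤ ∫ x, trPow (γ + 1 / 2) (W x) := integral_nonneg hP0
  have hk := (ENNReal.ofReal_le_ofReal_iff (by positivity)).1 key
  have hc : L11 * B3 / B1
      = Real.Gamma (γ + 1) / (Real.sqrt (3 * π) * Real.Gamma (γ + 3 / 2)) := by
    have g52 : Real.Gamma (5 / 2) = 3 / 4 * Real.sqrt π := by
      rw [show (5:ℝ) / 2 = (1 / 2 + 1) + 1 by norm_num, Real.Gamma_add_one (by norm_num),
        Real.Gamma_add_one (by norm_num), Real.Gamma_one_half_eq]
      ring
    have g2 : Real.Gamma 2 = 1 := Real.Gamma_two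
    simp only [B1, B3, ProbabilityTheory.beta, g52, g2, L11,
      show γ - 1 + 5 / 2 = γ + 3 / 2 by ring, show γ - 1 + 2 = γ + 1 by ring,
      Real.sqrt_mul (by norm_num : (0:ℝ) ≤ 3)]
    have n1 := (Real.Gamma_pos_of_pos (by linarith : 0 < γ - 1)).ne'
    have n2 := (Real.Gamma_pos_of_pos (by linarith : 0 < γ + 1)).ne'
    have n3 := (Real.Gamma_pos_of_pos (by linarith : 0 < γ + 3 / 2)).ne'
    have n4 : Real.sqrt π ≠ 0 := (Real.sqrt_pos.2 pi_pos).ne'
    field_simp
    rw [Real.sq_sqrt pi_pos.le]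
  rw [← hc]
  calc ∑ i, |lam i| ^ γ = (∑ i, |lam i| ^ γ) * B1 / B1 := by field_simp
    _ ≤ L11 * ((∫ x, trPow (γ + 1 / 2) (W x)) * B3) / B1 := by gcongr
    _ = _ := by ring

end Vale.Agent.P371M
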