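import Vale.Agent.P371M.Kernel

namespace Vale.Agent.P371M

open Matrix Finset Real
open scoped Matrix ComplexOrder MatrixOrder

variable {n : ℕ}

theorem trace_mul_nonneg_re {P Q : Matrix (Fin n) (Fin n) ℂ} (hP : P.PosSemidef)
    (hQ : Q.PosSemidef) : 0 ≤ (trace (P * Q)).re := by
  obtain ⟨B, rfl⟩ := CStarAlgebra.nonneg_iff_eq_star_mul_self.mp hQ.nonneg
  rw [← Matrix.mul_assoc, Matrix.trace_mul_comm, ← Matrix.mul_assoc]
  exact (Complex.nonneg_iff.1 (hP.mul_mul_conjTranspose_same B).trace_nonneg).1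

theorem hadamardC {A B : Matrix (Fin n) (Fin n) ℂ} (hA : A.PosSemidef) (hB : B.PosSemidef) :
    (A ⊙ B).PosSemidef := hA.hadamard hB

theorem weight_psd {μ : ℝ} (hμ : μ ∈ Set.Icc 0 1) {x : Fin n → ℝ}
    (hx : ∀ i, x i ∈ Set.Ioo 0 π) {R M : Matrix (Fin n) (Fin n) ℂ} (hR : R.PosSemidef)
    (hRM : ∀ i j, R i j = (sin ((x i + x j) / 2) : ℂ) * M i j) :
    (diagonal (fun i => (sin (μ * x i) : ℂ)) * M +
      M * diagonal (fun i => (sin (μ * x i) : ℂ))).PosSemidef := by
  convert hadamardC hR (posSemidef_ofReal (weightKernel_psd hμ x hx)) using 1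
  ext i j
  have h0 : 0 < sin ((x i + x j) / 2) := by
    apply sin_pos_of_pos_of_lt_pi <;> linarith [(hx i).1, (hx i).2, (hx j).1, (hx j).2]
  have h1 : (sin ((x i + x j) / 2) : ℂ) ≠ 0 := by exact_mod_cast h0.ne'
  simp only [Matrix.add_apply, Matrix.diagonal_mul, Matrix.mul_diagonal, Matrix.hadamard_apply,
    Matrix.of_apply, hRM i j, Complex.ofReal_div, Complex.ofReal_add]
  field_simp

theorem trace_anticomm_split (A B K M : Matrix (Fin n) (Fin n) ℂ) :
    trace (A * K * B * (K * M + M * K)) + trace (B * K * A * (K * M + M * K))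
      = trace (K * B * K * (A * M + M * A)) + trace (K * A * K * (B * M + M * B)) := by
  simp only [Matrix.mul_add, Matrix.trace_add]
  have c1 : ∀ A B : Matrix (Fin n) (Fin n) ℂ,
      trace (A * K * B * (K * M)) = trace (K * B * K * (M * A)) := by
    intro A B
    simp only [Matrix.mul_assoc]
    rw [Matrix.trace_mul_comm A]
    simp only [Matrix.mul_assoc]
  have c2 : ∀ A B : Matrix (Fin n) (Fin n) ℂ,
      trace (A * K * B * (M * K)) = trace (K * A * K * (B * M)) := by
    intro A B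
    rw [show A * K * B * (M * K) = (A * K * B * M) * K by simp only [Matrix.mul_assoc],
      Matrix.trace_mul_comm]
    simp only [Matrix.mul_assoc]
  rw [c1 A B, c2 A B, c1 B A, c2 B A]
  ring

theorem pair_nonneg {x a b : Fin n → ℝ} {M : Matrix (Fin n) (Fin n) ℂ} (hM : M.IsHermitian)
    (ha : ∀ i, 0 ≤ a i) (hb : ∀ i, 0 ≤ b i)
    (hMa : (diagonal (fun i => (a i : ℂ)) * M + M * diagonal (fun i => (a i : ℂ))).PosSemidef)
    (hMb : (diagonal (fun i => (b i : ℂ)) * M + M * diagonal (fun i => (b i : ℂ))).PosSemidef) :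
    0 ≤ ∑ i, ∑ j, (x i - x j) ^ 2 * (a i * b j + a j * b i) * (M i j * (M * M) j i).re := by
  classical
  set Da := diagonal (fun i => (a i : ℂ)) with hDa
  set Db := diagonal (fun i => (b i : ℂ)) with hDb
  set K : Matrix (Fin n) (Fin n) ℂ :=
    Matrix.of fun i j => Complex.I * ((x i - x j : ℝ) : ℂ) * M i j with hKdef
  have hK : K.IsHermitian := by
    ext i j
    simp only [hKdef, Matrix.conjTranspose_apply, Matrix.of_apply, star_mul', RCLike.star_def,
      Complex.conj_I, Complex.conj_ofReal, Complex.ofReal_sub, map_sub]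
    rw [← RCLike.star_def, hM.apply i j]
    ring
  set L := K * M + M * K with hL
  have key : ∀ i j, ((x i - x j : ℝ) : ℂ) ^ 2 * (M i j * (M * M) j i) = K i j * L j i := by
    intro i j
    simp only [hL, hKdef, Matrix.add_apply, Matrix.mul_apply, Matrix.of_apply,
      ← Finset.sum_add_distrib, Finset.mul_sum, Complex.ofReal_sub]
    refine Finset.sum_congr rfl fun k _ => ?_
    linear_combination (M i j * M j k * M k i * ((x i : ℂ) - x j) ^ 2) * Complex.I_sq
  have e : ∑ i, ∑ j, (x i - x j) ^ 2 * (a i * b j + a j * b i) * (M i j * (M * M) j i).re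
      = (trace (Da * K * Db * L) + trace (Db * K * Da * L)).re := by
    simp only [Matrix.trace, Matrix.diag, Matrix.mul_apply (N := L), hDa, hDb,
      Matrix.mul_diagonal, Matrix.diagonal_mul, ← Finset.sum_add_distrib, Complex.re_sum]
    refine Finset.sum_congr rfl fun i _ => Finset.sum_congr rfl fun j _ => ?_
    have : (a i : ℂ) * K i j * (b j : ℂ) * L j i + (b i : ℂ) * K i j * (a j : ℂ) * L j i
        = (((x i - x j) ^ 2 * (a i * b j + a j * b i) : ℝ) : ℂ) * (M i j * (M * M) j i) := by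
      rw [Complex.ofReal_mul, Complex.ofReal_pow]
      push_cast
      have := key i j
      push_cast at this
      linear_combination -((a i : ℂ) * b j + a j * b i) * this
    rw [this, Complex.re_ofReal_mul]
  rw [e]
  have p1 : (K * Db * K).PosSemidef := by
    have := (PosSemidef.diagonal (R := ℂ) (d := fun i => (b i : ℂ))
      (fun i => by simpa using hb i)).mul_mul_conjTranspose_same K
    rwa [hK.eq] at this
  have p2 : (K * Da * K).PosSemidef := by
    have := (PosSemidef.diagonal (R := ℂ) (d := fun i => (a i : ℂ))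
      (fun i => by simpa using ha i)).mul_mul_conjTranspose_same K
    rwa [hK.eq] at this
  rw [hL, trace_anticomm_split Da Db K M, Complex.add_re]
  exact add_nonneg (trace_mul_nonneg_re p1 hMa) (trace_mul_nonneg_re p2 hMb)

variable (x : Fin n → ℝ) (M : Matrix (Fin n) (Fin n) ℂ)

/-- The symmetrized conjugation profile. -/
noncomputable def phi (s : ℝ) : ℝ :=
  ∑ i, ∑ j, cos (s * ((x i - x j) / 2)) * sin ((x i + x j) / 2) * (M i j * (M * M) j i).re

noncomputable def phi' (s : ℝ) : ℝ :=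
  ∑ i, ∑ j, -((x i - x j) / 2) * sin (s * ((x i - x j) / 2)) * sin ((x i + x j) / 2)
    * (M i j * (M * M) j i).re

noncomputable def phi'' (s : ℝ) : ℝ :=
  ∑ i, ∑ j, -((x i - x j) / 2) ^ 2 * cos (s * ((x i - x j) / 2)) * sin ((x i + x j) / 2)
    * (M i j * (M * M) j i).re

theorem phi_hasDeriv (s : ℝ) : HasDerivAt (phi x M) (phi' x M s) s := by
  refine HasDerivAt.fun_sum fun i _ => HasDerivAt.fun_sum fun j _ => ?_
  have h := (((hasDerivAt_id s).mul_const ((x i - x j) / 2)).cos.mul_const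
    (sin ((x i + x j) / 2))).mul_const ((M i j * (M * M) j i).re)
  refine h.congr_deriv ?_
  simp only [id, one_mul]
  ring

theorem phi'_hasDeriv (s : ℝ) : HasDerivAt (phi' x M) (phi'' x M s) s := by
  refine HasDerivAt.fun_sum fun i _ => HasDerivAt.fun_sum fun j _ => ?_
  have h := ((((hasDerivAt_id s).mul_const ((x i - x j) / 2)).sin.const_mul
    (-((x i - x j) / 2))).mul_const (sin ((x i + x j) / 2))).mul_const
    ((M i j * (M * M) j i).re)
  refine h.congr_deriv ?_
  simp only [id, one_mul]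
  ring

theorem phi_continuous : Continuous (phi x M) :=
  continuous_iff_continuousAt.2 fun s => (phi_hasDeriv x M s).continuousAt

variable {x M}

theorem trig_split (μ a b : ℝ) :
    sin (μ * π) * (sin (μ * a + (1 - μ) * b)) =
      sin (μ * a) * sin ((1 - μ) * (π - b)) + sin (μ * (π - a)) * sin ((1 - μ) * b) := by
  have h1 : (1 - μ) * (π - b) = π - (μ * π + (1 - μ) * b) := by ring
  rw [h1, Real.sin_pi_sub, show μ * (π - a) = μ * π - μ * a by ring, sin_add, sin_add, sin_sub]
  ring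

theorem phi''_nonpos (hx : ∀ i, x i ∈ Set.Ioo 0 π) {R : Matrix (Fin n) (Fin n) ℂ}
    (hR : R.PosSemidef) (hM : M.IsHermitian)
    (hRM : ∀ i j, R i j = (sin ((x i + x j) / 2) : ℂ) * M i j)
    {s : ℝ} (hs : s ∈ Set.Ioo (-1 : ℝ) 1) : phi'' x M s ≤ 0 := by
  set μ := (1 + s) / 2 with hμd
  have hμ : μ ∈ Set.Icc (0:ℝ) 1 := ⟨by rw [hμd]; linarith [hs.1], by rw [hμd]; linarith [hs.2]⟩
  have hν : 1 - μ ∈ Set.Icc (0:ℝ) 1 := ⟨by linarith [hμ.2], by linarith [hμ.1]⟩
  have hx' : ∀ i, π - x i ∈ Set.Ioo 0 π := fun i =>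
    ⟨by linarith [(hx i).2], by linarith [(hx i).1]⟩
  have hRM' : ∀ i j, R i j = (sin (((π - x i) + (π - x j)) / 2) : ℂ) * M i j := by
    intro i j
    rw [show ((π - x i) + (π - x j)) / 2 = π - (x i + x j) / 2 by ring, Real.sin_pi_sub]
    exact hRM i j
  have pos : ∀ ν ∈ Set.Icc (0:ℝ) 1, ∀ y : Fin n → ℝ, (∀ i, y i ∈ Set.Ioo 0 π) →
      ∀ i, 0 ≤ sin (ν * y i) := by
    intro ν hν y hy i
    apply sin_nonneg_of_nonneg_of_le_pi
    · exact mul_nonneg hν.1 (hy i).1.le
    · nlinarith [(hy i).1, (hy i).2, hν.2, pi_pos]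
  have P1 := pair_nonneg (x := x) hM (pos μ hμ x hx) (pos _ hν _ hx')
    (weight_psd hμ hx hR hRM) (weight_psd hν hx' hR hRM')
  have P2 := pair_nonneg (x := x) hM (pos μ hμ _ hx') (pos _ hν x hx)
    (weight_psd hμ hx' hR hRM') (weight_psd hν hx hR hRM)
  have hsin : 0 < sin (μ * π) := by
    apply sin_pos_of_pos_of_lt_pi
    · exact mul_pos (by rw [hμd]; linarith [hs.1]) pi_pos
    · exact mul_lt_of_lt_one_left pi_pos (by rw [hμd]; linarith [hs.2])
  have e : -(8 * sin (μ * π)) * phi'' x M s =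
      (∑ i, ∑ j, (x i - x j) ^ 2 * (sin (μ * x i) * sin ((1 - μ) * (π - x j))
          + sin (μ * x j) * sin ((1 - μ) * (π - x i))) * (M i j * (M * M) j i).re) +
      (∑ i, ∑ j, (x i - x j) ^ 2 * (sin (μ * (π - x i)) * sin ((1 - μ) * x j)
          + sin (μ * (π - x j)) * sin ((1 - μ) * x i)) * (M i j * (M * M) j i).re) := by
    simp only [phi'', Finset.mul_sum, ← Finset.sum_add_distrib]
    refine Finset.sum_congr rfl fun i _ => Finset.sum_congr rfl fun j _ => ?_
    have h1 := trig_split μ (x i) (x j)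
    have h2 := trig_split μ (x j) (x i)
    have h3 : sin (μ * x i + (1 - μ) * x j) + sin (μ * x j + (1 - μ) * x i)
        = 2 * sin ((x i + x j) / 2) * cos (s * ((x i - x j) / 2)) := by
      rw [show μ * x i + (1 - μ) * x j = (x i + x j) / 2 + s * ((x i - x j) / 2) by
          rw [hμd]; ring,
        show μ * x j + (1 - μ) * x i = (x i + x j) / 2 - s * ((x i - x j) / 2) by rw [hμd]; ring,
        sin_add, sin_sub]
      ring
    linear_combination ((x i - x j) ^ 2 * (M i j * (M * M) j i).re) * (h1 + h2)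
      - (sin (μ * π) * (x i - x j) ^ 2 * (M i j * (M * M) j i).re) * h3
  have := add_nonneg P1 P2
  rw [← e] at this
  nlinarith

theorem phi_ge_one (hx : ∀ i, x i ∈ Set.Ioo 0 π) {R : Matrix (Fin n) (Fin n) ℂ}
    (hR : R.PosSemidef) (hM : M.IsHermitian)
    (hRM : ∀ i j, R i j = (sin ((x i + x j) / 2) : ℂ) * M i j)
    {s : ℝ} (hs : s ∈ Set.Icc (0 : ℝ) 1) : phi x M 1 ≤ phi x M s := by
  have hc : ConcaveOn ℝ (Set.Icc (-1:ℝ) 1) (phi x M) := by
    refine concaveOn_of_hasDerivWithinAt2_nonpos (convex_Icc _ _)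
      (phi_continuous x M).continuousOn (f' := phi' x M) (f'' := phi'' x M) ?_ ?_ ?_
    · exact fun t _ => (phi_hasDeriv x M t).hasDerivWithinAt
    · exact fun t _ => (phi'_hasDeriv x M t).hasDerivWithinAt
    · intro t ht
      rw [interior_Icc] at ht
      exact phi''_nonpos hx hR hM hRM ht
  have hsym : phi x M (-1) = phi x M 1 := by simp [phi]
  have := hc.2 (show (-1:ℝ) ∈ Set.Icc (-1:ℝ) 1 by norm_num)
    (show (1:ℝ) ∈ Set.Icc (-1:ℝ) 1 by norm_num)
    (show 0 ≤ (1 - s) / 2 by linarith [hs.2]) (show 0 ≤ (1 + s) / 2 by linarith [hs.1]) (by ring)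
  simp only [smul_eq_mul] at this
  rw [hsym, show (1 - s) / 2 * (-1) + (1 + s) / 2 * 1 = s by ring] at this
  linarith

theorem phi_one : phi x M 1 = ∑ i, sin (x i) * ((M * M * M) i i).re := by
  have e : ∀ i j, cos (1 * ((x i - x j) / 2)) * sin ((x i + x j) / 2)
      = (sin (x i) + sin (x j)) / 2 := by
    intro i j
    rw [show x i = (x i + x j) / 2 + (x i - x j) / 2 by ring,
      show x j = (x i + x j) / 2 - (x i - x j) / 2 by ring, sin_add, sin_sub]
    ring_nf
  have h1 : ∀ i, ∑ j, (M i j * (M * M) j i).re = ((M * M * M) i i).re := fun i => by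
    rw [Matrix.mul_assoc, Matrix.mul_apply, Complex.re_sum]
  have h2 : ∀ j, ∑ i, (M i j * (M * M) j i).re = ((M * M * M) j j).re := fun j => by
    rw [Matrix.mul_apply, Complex.re_sum]
    exact Finset.sum_congr rfl fun i _ => by rw [mul_comm]
  have s1 : ∑ i, ∑ j, sin (x i) / 2 * (M i j * (M * M) j i).re
      = ∑ i, sin (x i) / 2 * ((M * M * M) i i).re := by
    simp only [← Finset.mul_sum, h1]
  have s2 : ∑ i, ∑ j, sin (x j) / 2 * (M i j * (M * M) j i).re
      = ∑ i, sin (x i) / 2 * ((M * M * M) i i).re := by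
    rw [Finset.sum_comm]
    simp only [← Finset.mul_sum, h2]
  have e2 : phi x M 1 = ∑ i, ∑ j, (sin (x i) / 2 * (M i j * (M * M) j i).re
      + sin (x j) / 2 * (M i j * (M * M) j i).re) := by
    unfold phi
    exact Finset.sum_congr rfl fun i _ => Finset.sum_congr rfl fun j _ => by rw [e i j]; ring
  rw [e2]
  simp only [Finset.sum_add_distrib]
  rw [s1, s2, ← Finset.sum_add_distrib]
  exact Finset.sum_congr rfl fun i _ => by ring

end Vale.Agent.P371M
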